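import Vale.Agent.P078.Local.Period.ZStep

/-!
# The compensated point moves by at most `ρ / 16` inside clean regions
-/

noncomputable section

namespace Vale.Agent.P078.Local

open Finset

variable {ι : Type*} [Fintype ι] [DecidableEq ι] {p : Par} {N : Net ι p.D}
  {st : St ι p.r} {i : Fin 3} {s : Bool} {a : ℕ} {S : Finset ι}
  (ω : Seeds ι p) (σ : Coins ι p)

omit [DecidableEq ι] in
theorem seg_head (ha : a < p.Nph) {b : ℕ} (hb : a < b) :
    ∃ rest, seg p ω a b = ((⟨a, ha⟩ : Fin p.Nph), none) :: rest := by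
  rw [seg_split ω (Nat.le_succ a) hb, seg_succ ω ha]
  exact ⟨_, rfl⟩

/-- `3 M` bounds the row of a watched unexited site. -/
theorem Irow_le_of_watched {sls : List (Slot ι p)} {l : ι}
    (hw : l ∈ watched p N i s (p.floor i a) st.h S)
    (he : l ∉ (axRun p N ω σ i s a S st sls).2.ex) :
    Irow S (axRun p N ω σ i s a S st sls).2.h (axRun p N ω σ i s a S st sls).2.Z (N.xs s) l
      ≤ 3 * p.M := by
  classical
  by_contra hlt
  exact he (high_axRun (N := N) ω σ sls (mem_filter.2 ⟨hw, not_le.1 hlt⟩))

/-- A jump inside the period comes from passed tests with the period's floor and snapshot. -/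
theorem canMove_period (hc : PerCtx p N st i s a S) {k : ℕ} {m : Fin p.Nph} {l : ι}
    (hk : k < (seg p ω a (a + p.len i)).length)
    (hsl : (seg p ω a (a + p.len i))[k] = (m, some l))
    (hmove : canMove p N ω m (runOn p N ω σ st ((seg p ω a (a + p.len i)).take k)) l) :
    p.floor i m = p.floor i a ∧ startOK p N i s (p.floor i a) st.h l ∧
      turnOK p N i s (p.floor i a) (runOn p N ω σ st ((seg p ω a (a + p.len i)).take k)).h l := by
  have hmem := (mem_seg ω).1 (List.getElem_mem hk (l := seg p ω a (a + p.len i)))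
  rw [hsl] at hmem
  simp only at hmem
  have hfl : p.floor i m = p.floor i a := floor_eq_of_period hc.ok hc.dvd hmem.1 hmem.2
  have haN : a < p.Nph := by have := hc.fit; have := len_pos hc.ok i; omega
  have hk0 : 0 < k := by
    rcases Nat.eq_zero_or_pos k with rfl | hk0
    · exfalso
      obtain ⟨rest, hrest⟩ := seg_head ω haN (Nat.lt_add_of_pos_right (len_pos hc.ok i))
      simp only [hrest, List.getElem_cons_zero, Prod.mk.injEq] at hsl
      exact absurd hsl.2 (by simp)
    · exact hk0
  have hsn := snap_runOn (N := N) ω st σ hc.dvd haN (len_pos hc.ok i) hk0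
  obtain ⟨-, h2, h3, -⟩ := hmove
  exact ⟨hfl, by have := h2 i s; rwa [hfl, hsn] at this, by have := h3 i s; rwa [hfl] at this⟩

/-- The drift of one jump of the compensated point. -/
theorem abs_dz_fine (hL : Iface.StmtLine (ι := ι) (r := p.r))
    (hO : Iface.StmtOrder (ι := ι) (r := p.r)) (hT : Iface.StmtTail (ι := ι) (r := p.r))
    (hc : PerCtx p N st i s a S) {U : Finset ι} (hU : U ⊆ core p N i S)
    (hUe : Disjoint U (perEx p N ω σ i s a S st)) {k : ℕ} {m : Fin p.Nph} {l : ι} {e : ℝ}
    (hk : k < (seg p ω a (a + p.len i)).length)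
    (hsl : (seg p ω a (a + p.len i))[k] = (m, some l)) (hball : N.ball l (p.R i) ⊆ U) (he : 0 ≤ e)
    (hze : ∀ u ∈ N.ball l (p.R i),
      |(axRun p N ω σ i s a S st ((seg p ω a (a + p.len i)).take k)).2.Z u
        - (p.floor i a + p.rise i / 2)| ≤ e) :
    |∑ c, jumpAt p N ω m (axRun p N ω σ i s a S st ((seg p ω a (a + p.len i)).take k)).1 l
        (σ (m, some l)) c
      * Local.m S l (axRun p N ω σ i s a S st ((seg p ω a (a + p.len i)).take k)).2.h c
          (axRun p N ω σ i s a S st ((seg p ω a (a + p.len i)).take k)).2.Z (N.xs s)|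
      ≤ Real.sqrt p.η * (80 * (p.r : ℝ) ^ 2 * p.M * (p.rise i + e)) := by
  classical
  set L := (seg p ω a (a + p.len i)).take k with hLdef
  have hzb := hc.valid_crude ω σ k
  have hcr := hc.Z_crude ω σ k
  have hh := axRun_isLaw (N := N) ω st σ (i := i) (s := s) (a := a) (S := S) hc.ok hc.law L
  have hq1 := axRun_fst (N := N) ω st σ (i := i) (s := s) (a := a) (S := S) L
  have hnex : ∀ u ∈ U, u ∉ (axRun p N ω σ i s a S st L).2.ex := fun u hu hex =>
    Finset.disjoint_left.1 hUe hu (ex_take_subset_perEx (N := N) ω st σ k hex)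
  have heq : ∀ u ∈ U, (axRun p N ω σ i s a S st L).2.h u = (runOn p N ω σ st L).h u := fun u hu =>
    (ax_h_eq (N := N) ω st σ L u).1 (hU hu) (hnex u hu)
  have hlU : l ∈ U := hball (N.mem_ball_self l _)
  rw [hq1]
  set st' := runOn p N ω σ st L with hst'
  by_cases hmove : canMove p N ω m st' l
  swap
  · simp only [jumpAt_of_not hmove, Pi.zero_apply, zero_mul, sum_const_zero, abs_zero]
    have := hc.ok.M_ge; have := Par.rise_pos hc.ok i
    positivity
  obtain ⟨hfl, hstart, hturn⟩ := canMove_period ω σ hc hk hsl hmove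
  have hwatch : l ∈ watched p N i s (p.floor i a) st.h S := mem_filter.2 ⟨hU hlU, hstart⟩
  have hI := Irow_le_of_watched (N := N) ω σ (st := st) (i := i) (s := s) (a := a) (S := S) hwatch
    (hnex l hlU)
  have hA := hc.A_le
  have hρ := Par.rise_le hc.ok i
  have hρ0 := (Par.rise_pos hc.ok i).le
  have hAB : p.floor i a + p.rise i = p.floor i a + p.rise i / 2 + p.rise i / 2 := by ring
  have hvB : Valid (N.ball l (p.R i)) (axRun p N ω σ i s a S st L).2.h
      (fun _ => p.floor i a + p.rise i / 2 + p.rise i / 2) (N.xs s) := by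
    rw [← hAB]
    exact (valid_congr (fun u hu => (heq u (hball hu)).symm) fun _ _ => rfl).1 hturn.1
  have hIB : Irow (N.ball l (p.R i)) (axRun p N ω σ i s a S st L).2.h
      (fun _ => p.floor i a + p.rise i / 2 + p.rise i / 2) (N.xs s) l ≤ 5 * p.M := by
    rw [← hAB, Irow_congr (fun u hu => heq u (hball hu)) fun _ _ => rfl]
    exact hturn.2
  have hkill : ∀ c, killRows p N m st'.h l (i, s) c = Local.m (N.ball l (p.R i)) l
      (axRun p N ω σ i s a S st L).2.h c (fun _ => p.floor i a + p.rise i / 2 + p.rise i / 2)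
      (N.xs s) := by
    intro c
    rw [← hAB]
    simp only [killRows, hfl]
    exact m_congr (fun u hu _ => (heq u (hball hu)).symm) (fun _ _ _ => rfl) c
  set ξ := jumpAt p N ω m st' l (σ (m, some l)) with hξdef
  have horth : ∑ c, ξ c * killRows p N m st'.h l (i, s) c = 0 :=
    sum_jumpAt_killRows (N := N) ω m st' l _ (i, s)
  have hstep : ∀ c, |ξ c * (Local.m S l (axRun p N ω σ i s a S st L).2.h c
        (axRun p N ω σ i s a S st L).2.Z (N.xs s) - killRows p N m st'.h l (i, s) c)|
      ≤ Real.sqrt p.η * (80 * p.r * p.M * (p.rise i + e)) := by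
    intro c
    rw [abs_mul]
    by_cases hc0 : ξ c = 0
    · rw [hc0, abs_zero, zero_mul]; have := hc.ok.M_ge; positivity
    refine mul_le_mul (abs_jumpAt_le (N := N) ω m st' l _ c) ?_ (abs_nonneg _) (Real.sqrt_nonneg _)
    rw [hkill c]
    refine abs_m_sub_le hL hO hT hc.ok (fun u _ => hh u (mem_univ u)) hzb.1 (fun u _ => ?_)
      (by linarith) (hball.trans (hU.trans core_subset)) he hze hI hvB hIB ?_
    · have := (abs_le.1 (hcr u)).2; linarith
    · rw [heq l hlU]
      have := live_h0 (mem_live_of_jumpAt_ne (N := N) ω m st' l _ hc0)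
      linarith [Real.sqrt_nonneg p.η]
  have hsum : ∑ c, ξ c * Local.m S l (axRun p N ω σ i s a S st L).2.h c
        (axRun p N ω σ i s a S st L).2.Z (N.xs s)
      = ∑ c, ξ c * (Local.m S l (axRun p N ω σ i s a S st L).2.h c
        (axRun p N ω σ i s a S st L).2.Z (N.xs s) - killRows p N m st'.h l (i, s) c) := by
    simp only [mul_sub, sum_sub_distrib, horth, sub_zero]
  rw [hsum]
  refine (abs_sum_le_sum_abs _ _).trans ((sum_le_sum fun c _ => hstep c).trans (le_of_eq ?_))
  simp
  ring

/-- One round of the bootstrap: the bound `e` on a neighbourhood gives a bound on the inside. -/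
theorem zbound_round (hL : Iface.StmtLine (ι := ι) (r := p.r))
    (hO : Iface.StmtOrder (ι := ι) (r := p.r)) (hT : Iface.StmtTail (ι := ι) (r := p.r))
    (hc : PerCtx p N st i s a S) {U V : Finset ι} (hU : U ⊆ core p N i S)
    (hUe : Disjoint U (perEx p N ω σ i s a S st)) (hVU : N.nbhd V (p.R i) ⊆ U) {e : ℝ} (he : 0 ≤ e)
    (hze : ∀ k, ∀ u ∈ U,
      |(axRun p N ω σ i s a S st ((seg p ω a (a + p.len i)).take k)).2.Z u
        - (p.floor i a + p.rise i / 2)| ≤ e) (k : ℕ) :
    ∀ l ∈ V, |(axRun p N ω σ i s a S st ((seg p ω a (a + p.len i)).take k)).2.Z l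
        - (p.floor i a + p.rise i / 2)|
      ≤ turns ((seg p ω a (a + p.len i)).take k) l
        * (Real.sqrt p.η * (80 * (p.r : ℝ) ^ 2 * p.M * (p.rise i + e))) := by
  intro l hl
  induction k with
  | zero => simp [axRun, axInit, turns]
  | succ k ih =>
    rcases lt_or_ge k (seg p ω a (a + p.len i)).length with hk | hk
    · rw [List.take_succ_eq_append_getElem hk, axRun_concat]
      obtain ⟨m, hm⟩ : ∃ sl, (seg p ω a (a + p.len i))[k] = sl := ⟨_, rfl⟩
      rw [hm]
      have hB0 : 0 ≤ Real.sqrt p.η * (80 * (p.r : ℝ) ^ 2 * p.M * (p.rise i + e)) := by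
        have := hc.ok.M_ge; have := (Par.rise_pos hc.ok i).le; positivity
      have hweak : |(axRun p N ω σ i s a S st ((seg p ω a (a + p.len i)).take k)).2.Z l
          - (p.floor i a + p.rise i / 2)|
          ≤ turns ((seg p ω a (a + p.len i)).take k ++ [m]) l
            * (Real.sqrt p.η * (80 * (p.r : ℝ) ^ 2 * p.M * (p.rise i + e))) :=
        ih.trans (mul_le_mul_of_nonneg_right (Nat.cast_le.2 (by rw [turns_append]; omega)) hB0)
      obtain ⟨n, _ | w⟩ := m
      · exact hweak
      simp only [axStep, axJump]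
      split
      · rcases eq_or_ne l w with rfl | hne
        · have hball : N.ball l (p.R i) ⊆ U := (N.ball_subset_nbhd hl).trans hVU
          have hd := abs_dz_fine ω σ hL hO hT hc hU hUe hk hm hball he
            fun u hu => hze k u (hball hu)
          have ht : turns ((seg p ω a (a + p.len i)).take k ++ [(n, some l)]) l
              = turns ((seg p ω a (a + p.len i)).take k) l + 1 := by
            rw [turns_append]; simp [turns]
          simp only [Function.update_self]
          rw [ht, Nat.cast_add, Nat.cast_one, add_mul, one_mul]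
          rw [abs_le] at ih hd ⊢
          constructor <;> linarith
        · simp only [Function.update_of_ne hne]
          exact hweak
      · exact hweak
    · rw [List.take_of_length_le (Nat.le_succ_of_le hk)]
      rwa [List.take_of_length_le hk] at ih

/-- The bootstrap, `Z` stays within `ρ / 16` after nine rounds. -/
theorem zbound_of (hL : Iface.StmtLine (ι := ι) (r := p.r))
    (hO : Iface.StmtOrder (ι := ι) (r := p.r)) (hT : Iface.StmtTail (ι := ι) (r := p.r))
    (hc : PerCtx p N st i s a S) (V : ℕ → Finset ι) (h0 : V 0 ⊆ core p N i S)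
    (h0e : Disjoint (V 0) (perEx p N ω σ i s a S st))
    (hnest : ∀ j < 9, N.nbhd (V (j + 1)) (p.R i) ⊆ V j) (k : ℕ) :
    ∀ l ∈ V 9, |(axRun p N ω σ i s a S st ((seg p ω a (a + p.len i)).take k)).2.Z l
        - (p.floor i a + p.rise i / 2)| ≤ p.rise i / 16 := by
  set kap := 80 * (p.r : ℝ) ^ 2 * p.M * p.len i * Real.sqrt p.η with hkap
  set ρ := p.rise i with hρ
  have hρ0 : 0 < ρ := Par.rise_pos hc.ok i
  have hk0 : 0 ≤ kap := by have := hc.ok.M_ge; rw [hkap]; positivity
  have hkle : kap ≤ 1 / 128 := hc.ok.kap i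
  have hsub : ∀ j ≤ 9, V j ⊆ V 0 := by
    intro j
    induction j with
    | zero => intro _; exact subset_rfl
    | succ j ihj => intro hj; exact ((N.subset_nbhd).trans (hnest j (by omega))).trans (ihj (by omega))
  have main : ∀ j ≤ 9, ∀ k, ∀ l ∈ V j,
      |(axRun p N ω σ i s a S st ((seg p ω a (a + p.len i)).take k)).2.Z l
        - (p.floor i a + ρ / 2)| ≤ 2 * kap * ρ + kap ^ j := by
    intro j
    induction j with
    | zero =>
      intro _ k l _
      have := hc.Z_crude ω σ k l
      rw [pow_zero]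
      linarith [mul_nonneg hk0 hρ0.le]
    | succ j ihj =>
      intro hj k l hl
      have he : 0 ≤ 2 * kap * ρ + kap ^ j := by positivity
      have h := zbound_round ω σ hL hO hT hc ((hsub j (by omega)).trans h0)
        (h0e.mono_left (hsub j (by omega))) (hnest j (by omega)) he
        (fun k u hu => ihj (by omega) k u hu) k l hl
      have hturns : (turns ((seg p ω a (a + p.len i)).take k) l : ℝ) ≤ p.len i :=
        Nat.cast_le.2 (by simpa using turns_take_le (a := a) (b := a + p.len i) ω k l)
      refine h.trans ((mul_le_mul_of_nonneg_right hturns (by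
        have := hc.ok.M_ge; positivity)).trans ?_)
      calc (p.len i : ℝ) * (Real.sqrt p.η
            * (80 * (p.r : ℝ) ^ 2 * p.M * (ρ + (2 * kap * ρ + kap ^ j))))
          = kap * (ρ + 2 * kap * ρ + kap ^ j) := by rw [hkap]; ring
        _ ≤ 2 * kap * ρ + kap ^ (j + 1) := by
          rw [pow_succ]
          nlinarith [mul_nonneg (mul_nonneg hk0 hρ0.le) (show (0 : ℝ) ≤ 1 - 2 * kap by linarith)]
  intro l hl
  refine (main 9 le_rfl k l hl).trans ?_
  have h9 : kap ^ 9 ≤ ρ / 32 := hc.ok.kap9 i
  nlinarith [mul_le_mul_of_nonneg_right hkle hρ0.le]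

end Vale.Agent.P078.Local
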