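import Vale.Agent.P078.Local.Period.Dir
import Vale.Agent.P078.Local.Def.Exact

/-!
# Basic facts about runs: laws, segments, floors, snapshots, and the exact process
-/

noncomputable section

namespace Vale.Agent.P078.Local

variable {ι : Type*} [Fintype ι] [DecidableEq ι] (p : Par) (N : Net ι p.D)

/-! ### Jumps -/

omit [Fintype ι] [DecidableEq ι] in
theorem abs_coin (b : Bool) : |coin b| = 1 := by cases b <;> simp [coin]

omit [Fintype ι] [DecidableEq ι] in
theorem coin_not (b : Bool) : coin (!b) = -coin b := by cases b <;> simp [coin]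

variable {p N}

theorem jumpAt_of_not {ω : Seeds ι p} {n : Fin p.Nph} {st : St ι p.r} {l : ι} {b : Bool}
    (h : ¬ canMove p N ω n st l) : jumpAt p N ω n st l b = 0 := if_neg h

theorem jumpAt_of {ω : Seeds ι p} {n : Fin p.Nph} {st : St ι p.r} {l : ι} (b : Bool)
    (h : canMove p N ω n st l) : jumpAt p N ω n st l b = fun c =>
      coin b * Real.sqrt p.η * pickDir (live p st.h l) (killRows p N n st.h l) (ω n l).2 c := if_pos h

theorem canMove_of_jumpAt_ne {ω : Seeds ι p} {n : Fin p.Nph} {st : St ι p.r} {l : ι} {b : Bool}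
    (h : jumpAt p N ω n st l b ≠ 0) : canMove p N ω n st l :=
  Classical.byContradiction fun hc => h (jumpAt_of_not hc)

variable (ω : Seeds ι p) (n : Fin p.Nph) (st : St ι p.r) (l : ι) (b : Bool)

theorem abs_jumpAt_le (c : Fin p.r) : |jumpAt p N ω n st l b c| ≤ Real.sqrt p.η := by
  by_cases h : canMove p N ω n st l
  · rw [jumpAt_of b h]
    show |coin b * _ * _| ≤ _
    rw [abs_mul, abs_mul, abs_coin, one_mul, abs_of_nonneg (Real.sqrt_nonneg _)]
    exact mul_le_of_le_one_right (Real.sqrt_nonneg _) (abs_pickDir_le _ _ _ _)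
  · rw [jumpAt_of_not h, Pi.zero_apply, abs_zero]
    exact Real.sqrt_nonneg _

theorem jumpAt_neg : jumpAt p N ω n st l (!b) = -jumpAt p N ω n st l b := by
  by_cases h : canMove p N ω n st l
  · rw [jumpAt_of _ h, jumpAt_of _ h]
    funext c
    simp [coin_not]
  · simp [jumpAt_of_not h]

theorem sum_jumpAt : ∑ c, jumpAt p N ω n st l b c = 0 := by
  by_cases h : canMove p N ω n st l
  · rw [jumpAt_of b h]
    simp only [← Finset.mul_sum, (pickDir_mem _ _ _).2.1, mul_zero]
  · simp [jumpAt_of_not h]

theorem mem_live_of_jumpAt_ne {c : Fin p.r} (h : jumpAt p N ω n st l b c ≠ 0) :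
    c ∈ live p st.h l := by
  by_contra hc
  apply h
  by_cases hm : canMove p N ω n st l
  · rw [jumpAt_of b hm]
    simp [(pickDir_mem (live p st.h l) (killRows p N n st.h l) (ω n l).2).1 c hc]
  · simp [jumpAt_of_not hm]

omit [Fintype ι] [DecidableEq ι] in
theorem live_h0 {h : ι → Fin p.r → ℝ} {l : ι} {c : Fin p.r} (hc : c ∈ live p h l) :
    p.h0 + Real.sqrt p.η ≤ h l c := (Finset.mem_filter.1 hc).2

/-- A jump is orthogonal to the six killed rows. -/
theorem sum_jumpAt_killRows (k : Fin 3 × Bool) :
    ∑ c, jumpAt p N ω n st l b c * killRows p N n st.h l k c = 0 := by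
  by_cases h : canMove p N ω n st l
  · rw [jumpAt_of b h]
    have := (pickDir_mem (live p st.h l) (killRows p N n st.h l) (ω n l).2).2.2 k
    simp only [mul_assoc, ← Finset.mul_sum, this, mul_zero]
  · simp [jumpAt_of_not h]

/-- A jump of the rule raises `∑ h²` by exactly `η` on average. -/
theorem sum_sq_jumpAt (hη : 0 ≤ p.η) (h : canMove p N ω n st l) :
    ∑ c, jumpAt p N ω n st l b c ^ 2 = p.η := by
  rw [jumpAt_of b h]
  have hv := norm_pickDir_of_ne_bot _ _ (ω n l).2
    (dirSpace_ne_bot (live p st.h l) (killRows p N n st.h l) h.2.2.2)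
  have hsq := EuclideanSpace.norm_sq_eq (pickDir (live p st.h l) (killRows p N n st.h l) (ω n l).2)
  rw [hv] at hsq
  simp only [mul_pow, ← Finset.mul_sum, Real.sq_sqrt hη]
  have hc : coin b ^ 2 = 1 := by cases b <;> simp [coin]
  simp only [Real.norm_eq_abs, sq_abs] at hsq
  rw [hc, ← hsq]
  ring

theorem isLaw_add_jumpAt (_hp : p.Ok) (h : ∀ c, 0 ≤ st.h l c) (hs : ∑ c, st.h l c = 1) :
    (∀ c, 0 ≤ (st.h l + jumpAt p N ω n st l b) c) ∧
      ∑ c, (st.h l + jumpAt p N ω n st l b) c = 1 := by
  refine ⟨fun c => ?_, ?_⟩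
  · by_cases hc : jumpAt p N ω n st l b c = 0
    · simp [hc, h c]
    · have h1 := live_h0 (mem_live_of_jumpAt_ne ω n st l b hc)
      have h2 := (abs_le.1 (abs_jumpAt_le (N := N) ω n st l b c)).1
      have h3 : 0 ≤ p.h0 := by unfold Par.h0; positivity
      simp only [Pi.add_apply]
      linarith
  · simp [Finset.sum_add_distrib, hs, sum_jumpAt]

/-! ### Runs -/

theorem step_none (m : Fin p.Nph) : (step p N ω st (m, none) b).h = st.h := rfl

theorem step_some (m : Fin p.Nph) : (step p N ω st (m, some l) b).h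
    = Function.update st.h l (st.h l + jumpAt p N ω m st l b) := rfl

theorem step_isLaw (hp : p.Ok) (sl : Slot ι p) (h : IsLaw Finset.univ st.h) :
    IsLaw Finset.univ (step p N ω st sl b).h := by
  obtain ⟨m, _ | w⟩ := sl
  · exact h
  · intro u hu
    rw [step_some]
    rcases eq_or_ne u w with rfl | hne
    · rw [Function.update_self]
      exact isLaw_add_jumpAt ω m st u b hp (h u hu).1 (h u hu).2
    · rw [Function.update_of_ne hne]
      exact h u hu

variable (σ : Coins ι p)

omit n l b in
theorem runOn_append (l₁ l₂ : List (Slot ι p)) :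
    runOn p N ω σ st (l₁ ++ l₂) = runOn p N ω σ (runOn p N ω σ st l₁) l₂ := List.foldl_append ..

omit n l b in
theorem runOn_isLaw (hp : p.Ok) : ∀ (sls : List (Slot ι p)) (st : St ι p.r),
    IsLaw Finset.univ st.h → IsLaw Finset.univ (runOn p N ω σ st sls).h
  | [], _, h => h
  | sl :: sls, st, h => runOn_isLaw hp sls _ (step_isLaw ω st (σ sl) hp sl h)

omit [DecidableEq ι] in
theorem init_isLaw (hr : 0 < p.r) : IsLaw Finset.univ (init (ι := ι) p).h := by
  intro u _
  refine ⟨fun c => ?_, ?_⟩
  · simp only [init]; positivity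
  · simp [init, (Nat.cast_pos.2 hr : (0 : ℝ) < p.r).ne']

theorem stateAt_isLaw (hp : p.Ok) (k : ℕ) : IsLaw Finset.univ (stateAt p N ω σ k).h :=
  runOn_isLaw ω σ hp _ _ (init_isLaw (by have := hp.r_ge; omega))

/-! ### Segments -/

omit [DecidableEq ι] in
theorem mem_phaseSlots {sl : Slot ι p} : sl ∈ phaseSlots p ω n ↔ sl.1 = n := by
  obtain ⟨m, o⟩ := sl
  cases o with
  | none => simp [phaseSlots, eq_comm]
  | some w =>
    simp only [phaseSlots, List.mem_cons, List.mem_map, List.mem_flatMap, List.mem_finRange,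
      Finset.mem_toList, Finset.mem_filter, Finset.mem_univ, true_and, Prod.mk.injEq,
      reduceCtorEq, and_false, false_or]
    constructor
    · rintro ⟨u, -, rfl, -⟩; rfl
    · rintro rfl; exact ⟨w, ⟨_, rfl⟩, rfl, rfl⟩

omit [DecidableEq ι] in
theorem mem_seg {a b : ℕ} {sl : Slot ι p} :
    sl ∈ seg p ω a b ↔ a ≤ (sl.1 : ℕ) ∧ (sl.1 : ℕ) < b := by
  simp only [seg, List.mem_flatMap, List.mem_filter, List.mem_finRange, true_and,
    decide_eq_true_eq, mem_phaseSlots]
  constructor
  · rintro ⟨m, h, rfl⟩; exact h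
  · intro h; exact ⟨_, h, rfl⟩

omit [DecidableEq ι] in
theorem phaseSlots_nodup : (phaseSlots p ω n).Nodup := by
  refine List.nodup_cons.2 ⟨by simp, ?_⟩
  refine List.Nodup.map (fun u v h => by simpa using h) ?_
  refine List.nodup_flatMap.2 ⟨fun j _ => Finset.nodup_toList _, ?_⟩
  refine (List.nodup_finRange _).imp ?_
  intro i j hij u hu hv
  simp only [Finset.mem_toList, Finset.mem_filter, Finset.mem_univ, true_and] at hu hv
  exact hij (hu ▸ hv)

omit [DecidableEq ι] in
theorem seg_nodup (a b : ℕ) : (seg p ω a b).Nodup := by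
  refine List.nodup_flatMap.2 ⟨fun m _ => phaseSlots_nodup ω m, ?_⟩
  refine ((List.nodup_finRange _).filter _).imp ?_
  intro i j hij u hu hv
  rw [mem_phaseSlots] at hu hv
  exact hij (hu ▸ hv)

omit n st l b σ in
theorem filter_split {N₀ : ℕ} (L : List (Fin N₀)) (hL : L.Pairwise (· < ·)) {a c d : ℕ}
    (hac : a ≤ c) (hcd : c ≤ d) :
    L.filter (fun m : Fin N₀ => decide (a ≤ m.val ∧ m.val < d))
      = L.filter (fun m : Fin N₀ => decide (a ≤ m.val ∧ m.val < c))
        ++ L.filter (fun m : Fin N₀ => decide (c ≤ m.val ∧ m.val < d)) := by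
  induction L with
  | nil => rfl
  | cons x L ih =>
    rw [List.pairwise_cons] at hL
    have ih := ih hL.2
    by_cases h1 : a ≤ x.val ∧ x.val < c
    · rw [List.filter_cons_of_pos (by simp; omega), List.filter_cons_of_pos (by simp; omega),
        List.filter_cons_of_neg (by simp; omega), List.cons_append, ih]
    · by_cases h2 : c ≤ x.val ∧ x.val < d
      · have hnil : L.filter (fun m : Fin N₀ => decide (a ≤ m.val ∧ m.val < c)) = [] := by
          rw [List.filter_eq_nil_iff]
          intro y hy
          have : x.val < y.val := hL.1 y hy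
          simp; omega
        rw [List.filter_cons_of_pos (by simp; omega), List.filter_cons_of_neg (by simp; omega),
          List.filter_cons_of_pos (by simp; omega), ih, hnil]
        rfl
      · rw [List.filter_cons_of_neg (by simp; omega), List.filter_cons_of_neg (by simp; omega),
          List.filter_cons_of_neg (by simp; omega), ih]

omit [DecidableEq ι] n st l b σ in
theorem seg_split {a c d : ℕ} (hac : a ≤ c) (hcd : c ≤ d) :
    seg p ω a d = seg p ω a c ++ seg p ω c d := by
  simp only [seg]
  rw [filter_split _ (List.pairwise_lt_finRange _) hac hcd, List.flatMap_append]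

omit [DecidableEq ι] n st l b σ in
theorem seg_self (a : ℕ) : seg p ω a a = [] := by
  simp only [seg]
  rw [List.filter_eq_nil_iff.2 fun m _ => by simp]
  rfl

omit [DecidableEq ι] n st l b σ in
theorem seg_succ {a : ℕ} (ha : a < p.Nph) : seg p ω a (a + 1) = phaseSlots p ω ⟨a, ha⟩ := by
  simp only [seg]
  have : (List.finRange p.Nph).filter (fun m : Fin p.Nph => decide (a ≤ m.val ∧ m.val < a + 1))
      = [⟨a, ha⟩] := by
    have hiff : ∀ m : Fin p.Nph, decide (a ≤ m.val ∧ m.val < a + 1) = (m == ⟨a, ha⟩) := by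
      intro m
      rw [Bool.eq_iff_iff]
      simp [Fin.ext_iff]
      omega
    simp only [hiff]
    rw [List.filter_beq, List.count_eq_one_of_mem (List.nodup_finRange _) (List.mem_finRange _)]
    rfl
  rw [this, List.flatMap_singleton]

theorem stateAt_split {a c : ℕ} (hac : a ≤ c) :
    stateAt p N ω σ c = runOn p N ω σ (stateAt p N ω σ a) (seg p ω a c) := by
  rw [stateAt, stateAt, ← runOn_append, ← seg_split ω (Nat.zero_le a) hac]

theorem stateAt_succ {a : ℕ} (ha : a < p.Nph) :
    stateAt p N ω σ (a + 1) = runOn p N ω σ (stateAt p N ω σ a) (phaseSlots p ω ⟨a, ha⟩) := by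
  rw [stateAt_split ω σ (Nat.le_succ a), seg_succ ω ha]

/-! ### Floors and snapshots in a period -/

omit [Fintype ι] [DecidableEq ι] ω n st l b σ in
theorem len_pos (hp : p.Ok) (i : Fin 3) : 0 < p.len i := by
  have := hp.K1_pos; have := hp.K2_pos
  fin_cases i <;> simp [Par.len, *]

omit [Fintype ι] [DecidableEq ι] ω n st l b σ in
theorem len_dvd_Nph (i : Fin 3) : p.len i ∣ p.Nph := by
  fin_cases i
  · exact one_dvd _
  · exact Dvd.intro (p.N2 * p.K2) (by simp [Par.Nph, Par.len]; ring)
  · exact Dvd.intro_left _ rfl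

omit [Fintype ι] [DecidableEq ι] ω n st l b σ in
/-- The floor of a level is constant during each of its periods. -/
theorem floor_eq_of_period (hp : p.Ok) {i : Fin 3} {a k : ℕ} (ha : p.len i ∣ a) (hak : a ≤ k)
    (hk : k < a + p.len i) : p.floor i k = p.floor i a := by
  have hK := hp.K1_pos
  have hdiv : ∀ L : ℕ, 0 < L → L ∣ a → k < a + L → k / L = a / L := by
    rintro L hL ⟨q, rfl⟩ hlt
    rw [Nat.mul_div_cancel_left q hL]
    exact Nat.div_eq_of_lt_le (by rw [Nat.mul_comm]; omega)
      (by rw [Nat.mul_comm, Nat.mul_add, Nat.mul_one]; omega)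
  fin_cases i
  · have : k = a := by simp [Par.len] at hk; omega
    rw [this]
  · have h1 : k / p.K1 = a / p.K1 := hdiv _ hK (by simpa [Par.len] using ha) (by simpa [Par.len] using hk)
    simp only [Par.floor, Par.len]
    simp only [← Nat.div_div_eq_div_mul, Nat.mod_mul_right_div_self, h1, Fin.isValue, Fin.reduceFinMk,
      Matrix.cons_val]
  · have h2 := hdiv _ (len_pos hp 2) (by simpa using ha) (by simpa using hk)
    simp only [Par.floor]
    simp only [Fin.isValue, Matrix.cons_val, Fin.reduceFinMk]
    rw [h2]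

/-- The snapshot of level `i` during a period begun in state `st` is the law at its beginning. -/
theorem snap_runOn {i : Fin 3} {a : ℕ} (ha : p.len i ∣ a) (haN : a < p.Nph) (hlen : 0 < p.len i)
    {k : ℕ} (hk : 0 < k) :
    (runOn p N ω σ st ((seg p ω a (a + p.len i)).take k)).snap i = st.h := by
  have keep : ∀ (sls : List (Slot ι p)) (t : St ι p.r),
      (∀ sl ∈ sls, sl.2 = none → a < (sl.1 : ℕ) ∧ (sl.1 : ℕ) < a + p.len i) →
        (runOn p N ω σ t sls).snap i = t.snap i := by
    intro sls
    induction sls with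
    | nil => intro t _; rfl
    | cons sl sls ih =>
      intro t h
      refine (ih (step p N ω t sl (σ sl)) fun s hs => h s (List.mem_cons_of_mem _ hs)).trans ?_
      obtain ⟨m, _ | w⟩ := sl
      · obtain ⟨h1, h2⟩ : a < (m : ℕ) ∧ (m : ℕ) < a + p.len i := h _ List.mem_cons_self rfl
        have : ¬ p.len i ∣ (m : ℕ) := fun hd => by
          obtain ⟨u, hu⟩ := Nat.dvd_sub hd ha
          rcases u with _ | u
          · simp at hu; omega
          · rw [Nat.mul_succ] at hu; omega
        simp [step, this]
      · rfl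
  have hseg : seg p ω a (a + p.len i) = ((⟨a, haN⟩ : Fin p.Nph), none)
      :: ((phaseSlots p ω ⟨a, haN⟩).tail ++ seg p ω (a + 1) (a + p.len i)) := by
    rw [seg_split ω (Nat.le_succ a) (by omega : a + 1 ≤ a + p.len i), seg_succ ω haN]
    rfl
  have hmem : ∀ sl ∈ (phaseSlots p ω ⟨a, haN⟩).tail ++ seg p ω (a + 1) (a + p.len i),
      sl.2 = none → a < (sl.1 : ℕ) ∧ (sl.1 : ℕ) < a + p.len i := by
    intro sl hsl hnone
    rcases List.mem_append.1 hsl with h | h
    · exfalso
      simp only [phaseSlots, List.tail_cons, List.mem_map] at h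
      obtain ⟨w, -, rfl⟩ := h
      simp at hnone
    · rw [mem_seg] at h; omega
  rw [hseg]
  obtain ⟨j, rfl⟩ := Nat.exists_eq_succ_of_ne_zero hk.ne'
  rw [List.take_succ_cons]
  refine (keep _ _ fun sl hsl => hmem sl (List.mem_of_mem_take hsl)).trans ?_
  simp [step, ha]

/-! ### The exact process -/

variable {i : Fin 3} {s : Bool} {a : ℕ} {S : Finset ι}

theorem axRun_fst (sls : List (Slot ι p)) :
    (axRun p N ω σ i s a S st sls).1 = runOn p N ω σ st sls := by
  simp only [axRun, runOn]
  generalize watched p N i s (p.floor i a) st.h S = Wt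
  generalize axInit p N i s (p.floor i a) st.h S = A
  induction sls generalizing st A with
  | nil => rfl
  | cons sl sls ih =>
    simp only [List.foldl_cons]
    exact ih _ _

theorem axRun_concat (sls : List (Slot ι p)) (sl : Slot ι p) :
    axRun p N ω σ i s a S st (sls ++ [sl]) = axStep p N ω i s S
      (watched p N i s (p.floor i a) st.h S) (axRun p N ω σ i s a S st sls) sl (σ sl) := by
  simp [axRun, List.foldl_append]

theorem ex_subset_axJump (S Wt : Finset ι) (A : Ax ι p.r) (w : ι) (ξ : Fin p.r → ℝ) :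
    A.ex ⊆ (axJump p N i s S Wt A w ξ).ex := by
  unfold axJump
  split
  · exact Finset.subset_union_left
  · exact subset_rfl

theorem ex_subset_axStep (Wt : Finset ι) (q : St ι p.r × Ax ι p.r) (sl : Slot ι p) (c : Bool) :
    q.2.ex ⊆ (axStep p N ω i s S Wt q sl c).2.ex := by
  obtain ⟨m, _ | w⟩ := sl
  · exact subset_rfl
  · exact ex_subset_axJump S Wt q.2 w _

theorem ex_subset_axRun_append (l₁ l₂ : List (Slot ι p)) :
    (axRun p N ω σ i s a S st l₁).2.ex ⊆ (axRun p N ω σ i s a S st (l₁ ++ l₂)).2.ex := by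
  induction l₂ using List.reverseRecOn with
  | nil => simp
  | append_singleton l₂ sl ih =>
    rw [← List.append_assoc, axRun_concat]
    exact ih.trans (ex_subset_axStep ω _ _ _ _)

/-- Exits grow along the period. -/
theorem ex_take_subset_perEx (k : ℕ) :
    (axRun p N ω σ i s a S st ((seg p ω a (a + p.len i)).take k)).2.ex
      ⊆ perEx p N ω σ i s a S st := by
  have := ex_subset_axRun_append (N := N) ω st σ (i := i) (s := s) (a := a) (S := S)
    ((seg p ω a (a + p.len i)).take k) ((seg p ω a (a + p.len i)).drop k)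
  rwa [List.take_append_drop] at this

/-- The laws of the exact process follow the rule at unexited sites of the core, and are frozen
outside it. -/
theorem ax_h_eq (sls : List (Slot ι p)) (u : ι) :
    (u ∈ core p N i S → u ∉ (axRun p N ω σ i s a S st sls).2.ex →
      (axRun p N ω σ i s a S st sls).2.h u = (runOn p N ω σ st sls).h u) ∧
    (u ∉ core p N i S → (axRun p N ω σ i s a S st sls).2.h u = st.h u ∧
      (axRun p N ω σ i s a S st sls).2.Z u = p.floor i a + p.rise i / 2) := by
  induction sls using List.reverseRecOn with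
  | nil => simp [axRun, axInit, runOn]
  | append_singleton sls sl ih =>
    rw [axRun_concat, runOn_append]
    set q := axRun p N ω σ i s a S st sls with hq
    have hf : q.1 = runOn p N ω σ st sls := axRun_fst ω st σ sls
    obtain ⟨m, _ | w⟩ := sl
    · exact ⟨fun h1 h2 => ih.1 h1 h2, ih.2⟩
    · show _ ∧ _
      simp only [axStep, axJump, runOn, List.foldl_cons, List.foldl_nil]
      simp only [step]
      by_cases hw : w ∈ core p N i S ∧ w ∉ q.2.ex
      · simp only [if_pos hw]
        refine ⟨fun hu hex => ?_, fun hu => ?_⟩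
        · have hex' : u ∉ q.2.ex := fun h => hex (Finset.mem_union_left _ h)
          rcases eq_or_ne u w with rfl | hne
          · simp only [Function.update_self]
            rw [ih.1 hu hex', hf]
            rfl
          · simp only [Function.update_of_ne hne]
            exact ih.1 hu hex'
        · have hne : u ≠ w := fun h => hu (h ▸ hw.1)
          simp only [Function.update_of_ne hne]
          exact ih.2 hu
      · simp only [if_neg hw]
        refine ⟨fun hu hex => ?_, ih.2⟩
        have hne : u ≠ w := fun h => hw ⟨h ▸ hu, h ▸ hex⟩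
        simp only [Function.update_of_ne hne]
        exact ih.1 hu hex

theorem isLaw_axJump_h (hp : p.Ok) {Wt : Finset ι} {A : Ax ι p.r} {q : St ι p.r} {w : ι}
    (hA : IsLaw Finset.univ A.h) (hq : IsLaw Finset.univ q.h)
    (he : w ∈ core p N i S → w ∉ A.ex → A.h w = q.h w) :
    IsLaw Finset.univ (axJump p N i s S Wt A w (jumpAt p N ω n q w b)).h := by
  unfold axJump
  split
  · next hw =>
    intro u hu
    rcases eq_or_ne u w with rfl | hne
    · simp only [Function.update_self, he hw.1 hw.2]
      exact isLaw_add_jumpAt ω n q u b hp (hq u hu).1 (hq u hu).2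
    · simp only [Function.update_of_ne hne]
      exact hA u hu
  · exact hA

theorem axRun_isLaw (hp : p.Ok) (h : IsLaw Finset.univ st.h) (sls : List (Slot ι p)) :
    IsLaw Finset.univ (axRun p N ω σ i s a S st sls).2.h := by
  induction sls using List.reverseRecOn with
  | nil => exact h
  | append_singleton sls sl ih =>
    rw [axRun_concat]
    obtain ⟨m, _ | w⟩ := sl
    · exact ih
    · refine isLaw_axJump_h ω m _ hp ih ?_ fun h1 h2 => ?_
      · rw [axRun_fst]; exact runOn_isLaw ω σ hp _ _ h
      · rw [(ax_h_eq ω st σ sls w).1 h1 h2, axRun_fst]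

end Vale.Agent.P078.Local
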