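import Vale.Agent.P078.Local.Period.Out
import Vale.Agent.P078.Local.Slice.Line
import Vale.Agent.P078.Local.Slice.Order
import Vale.Agent.P078.Local.Slice.Tail

/-!
# The period lemma (sec. 6 of the note)
-/

noncomputable section

namespace Vale.Agent.P078.Local

variable {ι : Type*} [Fintype ι] [DecidableEq ι] (p : Par)

/-- `Iface.StmtZBound`. -/
theorem zBoundStmt : Iface.StmtZBound (ι := ι) p := stmtZBound_of lineStmt Slice.order Slice.tail

/-- `Iface.StmtOut`. -/
theorem outStmt : Iface.StmtOut (ι := ι) p := stmtOut_of lineStmt Slice.order Slice.tail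

/-- `Iface.StmtTurn`. -/
theorem turnStmt : Iface.StmtTurn (ι := ι) p := stmtTurn_of lineStmt Slice.order Slice.tail

end Vale.Agent.P078.Local
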