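import Vale.Agent.P078.Local.Period.Inv
import Vale.Agent.P078.Local.Flip.Super
import Vale.Agent.P078.Local.Slice.Jump

/-!
# `Φ` of the exact process is a martingale along a period
-/

noncomputable section

namespace Vale.Agent.P078.Local

open Finset

variable {ι : Type*} [Fintype ι] [DecidableEq ι] {p : Par} {N : Net ι p.D}
  {st : St ι p.r} {i : Fin 3} {s : Bool} {a : ℕ} {S : Finset ι}
  (ω : Seeds ι p)

/-- The exact process does not see the coins outside its slots. -/
theorem axRun_congr_coins {σ τ : Coins ι p} (sls : List (Slot ι p))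
    (h : ∀ sl ∈ sls, σ sl = τ sl) :
    axRun p N ω σ i s a S st sls = axRun p N ω τ i s a S st sls :=
  foldl_congr_coins (fun q sl b => axStep p N ω i s S (watched p N i s (p.floor i a) st.h S) q sl b)
    sls _ h

/-- The two values of one slot average to the value before it. -/
theorem phi_step_avg (hc : PerCtx p N st i s a S) (σ : Coins ι p) {l : ι} (hl : l ∈ S) (k : ℕ)
    (sl : Slot ι p) :
    let Wt := watched p N i s (p.floor i a) st.h S
    let q := axRun p N ω σ i s a S st ((seg p ω a (a + p.len i)).take k)
    Phi S (axStep p N ω i s S Wt q sl true).2.h (axStep p N ω i s S Wt q sl true).2.Z (N.xs s) l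
      + Phi S (axStep p N ω i s S Wt q sl false).2.h (axStep p N ω i s S Wt q sl false).2.Z (N.xs s) l
      = 2 * Phi S q.2.h q.2.Z (N.xs s) l := by
  intro Wt q
  obtain ⟨m, _ | w⟩ := sl
  · simp only [axStep]; ring
  have hv := (hc.valid_crude ω σ k).1
  have hcr := hc.Z_crude ω σ k w
  set L := (seg p ω a (a + p.len i)).take k
  have hlaw := axRun_isLaw (N := N) ω st σ (i := i) (s := s) (a := a) (S := S) hc.ok hc.law L
  have he0 := (ax_h_eq (N := N) ω st σ (i := i) (s := s) (a := a) (S := S) L w).1
  rw [← axRun_fst (N := N) ω st σ (i := i) (s := s) (a := a) (S := S) L] at he0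
  by_cases hw : w ∈ core p N i S ∧ w ∉ q.2.ex
  swap
  · simp only [axStep, axJump, if_neg hw]; ring
  simp only [axStep, axJump, if_pos hw]
  set ξ := jumpAt p N ω m q.1 w true with hξ
  have hneg : jumpAt p N ω m q.1 w false = -ξ := jumpAt_neg (N := N) ω m q.1 w true
  have hj := (jumpStmt S q.2.h q.2.Z (N.xs s) w ξ (Real.sqrt p.η) (fun u _ => hlaw u (mem_univ u))
    (core_subset hw.1) (N.xs_diag s) hv (by linarith [(abs_le.1 hcr).2, hc.A_le])
    (sum_jumpAt (N := N) ω m q.1 w true) (abs_jumpAt_le (N := N) ω m q.1 w true)
    fun c hc' => by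
      have := live_h0 (mem_live_of_jumpAt_ne (N := N) ω m q.1 w true hc')
      rw [he0 hw.1 hw.2]
      simpa [Par.h0] using this).2.1 l hl
  simp only [one_mul, neg_one_mul] at hj
  rw [hneg]
  simp only [Pi.neg_apply, neg_mul, sum_neg_distrib]
  exact hj

/-- **The martingale.** -/
theorem avg_phi_axRun (hc : PerCtx p N st i s a S) {l : ι} (hl : l ∈ S) :
    avg (fun σ : Coins ι p =>
      Phi S (axRun p N ω σ i s a S st (seg p ω a (a + p.len i))).2.h
        (axRun p N ω σ i s a S st (seg p ω a (a + p.len i))).2.Z (N.xs s) l)
      = Phi S st.h (fun _ => p.floor i a + p.rise i / 2) (N.xs s) l := by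
  set L := seg p ω a (a + p.len i) with hL
  suffices key : ∀ k, avg (fun σ : Coins ι p =>
      Phi S (axRun p N ω σ i s a S st (L.take k)).2.h
        (axRun p N ω σ i s a S st (L.take k)).2.Z (N.xs s) l)
      = Phi S st.h (fun _ => p.floor i a + p.rise i / 2) (N.xs s) l by
    have := key L.length
    rwa [List.take_length] at this
  intro k
  induction k with
  | zero => simp only [List.take_zero, axRun, axInit, List.foldl_nil]; exact avg_const (α := Coins ι p) _
  | succ k ih =>
    rcases lt_or_ge k L.length with hk | hk
    · rw [avg_split (L[k])]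
      refine Eq.trans ?_ ih
      congr 1
      funext σ
      simp only [List.take_succ_eq_append_getElem hk, axRun_concat, Function.update_self]
      have hne : ∀ sl ∈ L.take k, sl ≠ L[k] := fun sl hsl he => by
        obtain ⟨j, hj, rfl⟩ := List.getElem_of_mem hsl
        rw [List.getElem_take] at he
        have := (seg_nodup ω a (a + p.len i)).getElem_inj_iff.1 he
        simp only [List.length_take] at hj
        omega
      rw [axRun_congr_coins ω (τ := σ) (L.take k) fun sl hsl => Function.update_of_ne (hne sl hsl) _ _,
        axRun_congr_coins ω (σ := Function.update σ L[k] false) (τ := σ) (L.take k) fun sl hsl =>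
          Function.update_of_ne (hne sl hsl) _ _]
      rw [phi_step_avg ω hc σ hl k (L[k])]
      ring
    · simp only [List.take_of_length_le (Nat.le_succ_of_le hk)]
      simp only [List.take_of_length_le hk] at ih
      exact ih

end Vale.Agent.P078.Local
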