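import Vale.Agent.P078.Local.Def.Rule

/-!
# The direction of a jump
-/

noncomputable section

namespace Vale.Agent.P078.Local

variable {r : ℕ} {κ : Type*}

theorem pickDir_mem (L : Finset (Fin r)) (rows : κ → Fin r → ℝ) (π : Equiv.Perm (Fin r)) :
    pickDir L rows π ∈ dirSpace L rows := by
  classical
  simp only [pickDir]
  split
  · exact (dirSpace L rows).smul_mem _ (Submodule.starProjection_apply_mem _ _)
  · exact (dirSpace L rows).zero_mem

theorem pickDir_eq_zero_or_norm (L : Finset (Fin r)) (rows : κ → Fin r → ℝ)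
    (π : Equiv.Perm (Fin r)) : pickDir L rows π = 0 ∨ ‖pickDir L rows π‖ = 1 := by
  classical
  simp only [pickDir]
  split
  · next j hj =>
    right
    have hne := of_decide_eq_true (List.find?_some (p := fun j => decide _) hj)
    rw [norm_smul, norm_inv, norm_norm, inv_mul_cancel₀ (norm_ne_zero_iff.2 hne)]
  · exact Or.inl rfl

theorem norm_pickDir_le (L : Finset (Fin r)) (rows : κ → Fin r → ℝ) (π : Equiv.Perm (Fin r)) :
    ‖pickDir L rows π‖ ≤ 1 := by
  rcases pickDir_eq_zero_or_norm L rows π with h | h <;> simp [h]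

theorem abs_pickDir_le (L : Finset (Fin r)) (rows : κ → Fin r → ℝ) (π : Equiv.Perm (Fin r))
    (c : Fin r) : |pickDir L rows π c| ≤ 1 :=
  (PiLp.norm_apply_le (pickDir L rows π) c).trans (norm_pickDir_le L rows π)

/-- If a nonzero admissible direction exists then the picked one is a unit vector. -/
theorem norm_pickDir_of_ne_bot (L : Finset (Fin r)) (rows : κ → Fin r → ℝ) (π : Equiv.Perm (Fin r))
    (hV : dirSpace L rows ≠ ⊥) : ‖pickDir L rows π‖ = 1 := by
  classical
  simp only [pickDir]
  split
  · next j hj =>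
    have hne := of_decide_eq_true (List.find?_some (p := fun j => decide _) hj)
    rw [norm_smul, norm_inv, norm_norm, inv_mul_cancel₀ (norm_ne_zero_iff.2 hne)]
  · next hj =>
    exfalso
    apply hV
    set V := dirSpace L rows
    have h0 : ∀ i : Fin r, V.starProjection (EuclideanSpace.single i (1 : ℝ)) = 0 := by
      intro i
      have := List.find?_eq_none.1 hj (π.symm i) (List.mem_finRange _)
      simpa using this
    rw [Submodule.eq_bot_iff]
    intro v hv
    have hvv : V.starProjection v = v := Submodule.starProjection_eq_self_iff.2 hv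
    rw [← hvv, ← (EuclideanSpace.basisFun (Fin r) ℝ).sum_repr v, map_sum]
    refine Finset.sum_eq_zero fun i _ => ?_
    rw [map_smul, EuclideanSpace.basisFun_apply, h0, smul_zero]

/-- Eight live colours leave a direction orthogonal to `1` and to six rows. -/
theorem dirSpace_ne_bot (L : Finset (Fin r)) (rows : Fin 3 × Bool → Fin r → ℝ) (hL : 8 ≤ L.card) :
    dirSpace L rows ≠ ⊥ := by
  classical
  let f : (L → ℝ) →ₗ[ℝ] (Option (Fin 3 × Bool) → ℝ) :=
    { toFun := fun v k => k.elim (∑ c, v c) fun k => ∑ c, v c * rows k c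
      map_add' := fun a b => by
        funext k; cases k <;> simp [Finset.sum_add_distrib, add_mul]
      map_smul' := fun a b => by
        funext k; cases k <;> simp [Finset.mul_sum, mul_assoc] }
  have hlt : Module.finrank ℝ (Option (Fin 3 × Bool) → ℝ) < Module.finrank ℝ (L → ℝ) := by
    simp only [Module.finrank_fintype_fun_eq_card, Fintype.card_option, Fintype.card_prod,
      Fintype.card_fin, Fintype.card_bool, Fintype.card_coe]
    omega
  obtain ⟨v, hv, hv0⟩ := Submodule.exists_mem_ne_zero_of_ne_bot
    (LinearMap.ker_ne_bot_of_finrank_lt (f := f) hlt)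
  let w : Fin r → ℝ := fun c => if hc : c ∈ L then v ⟨c, hc⟩ else 0
  have hsum : ∀ g : Fin r → ℝ, ∑ c, w c * g c = ∑ c : L, v c * g c := by
    intro g
    rw [← Finset.sum_subset (Finset.subset_univ L) (fun c _ hc => by simp [w, hc]),
      ← Finset.sum_coe_sort L]
    exact Finset.sum_congr rfl fun c _ => by simp [w]
  rw [Submodule.ne_bot_iff]
  refine ⟨WithLp.toLp 2 w, ⟨fun c hc => by simp [w, hc], ?_, fun k => ?_⟩, fun h0 => hv0 ?_⟩
  · have h1 : ∑ c : L, v c = 0 := congrFun hv none
    have h2 := (hsum fun _ => 1).trans (show ∑ c : L, v c * (1 : ℝ) = 0 by simpa using h1)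
    simpa using h2
  · exact (hsum (rows k)).trans (congrFun hv (some k))
  · funext c
    have := congrFun (congrArg (WithLp.ofLp) h0) (c : Fin r)
    simpa [w] using this

end Vale.Agent.P078.Local
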