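import Vale.Agent.P078.Local.Period.Run

/-!
# Numerical facts about floors, rises and tails
-/

noncomputable section

namespace Vale.Agent.P078.Local

namespace Par

variable {p : Par}

theorem Nph_pos (hp : p.Ok) : 0 < p.Nph :=
  Nat.mul_pos hp.N2_pos (Nat.mul_pos hp.K1_pos hp.K2_pos)

theorem h0_pos (hp : p.Ok) : 0 < p.h0 := by
  have := hp.r_ge
  unfold Par.h0
  positivity

theorem rise_pos (hp : p.Ok) (i : Fin 3) : 0 < p.rise i := by
  have : (0 : ℝ) < p.Nph := Nat.cast_pos.2 (Nph_pos hp)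
  have : (0 : ℝ) < p.K1 := Nat.cast_pos.2 hp.K1_pos
  have : (0 : ℝ) < p.K2 := Nat.cast_pos.2 hp.K2_pos
  have := hp.t0_pos
  fin_cases i <;>
    simp only [Par.rise, Fin.isValue, Fin.reduceFinMk, Fin.zero_eta, Matrix.cons_val] <;> positivity

theorem t0_le_floor (hp : p.Ok) (i : Fin 3) (n : ℕ) : p.t0 ≤ p.floor i n := by
  have h0 := (rise_pos hp 0).le
  have h1 := (rise_pos hp 1).le
  have h2 := (rise_pos hp 2).le
  have e2 : 0 ≤ (n / p.len 2 : ℕ) * p.rise 2 := by positivity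
  have e1 : 0 ≤ (n % p.len 2 / p.K1 : ℕ) * p.rise 1 := by positivity
  have e0 : 0 ≤ (n % p.K1 : ℕ) * p.rise 0 := by positivity
  fin_cases i <;>
    simp only [Par.floor, Fin.isValue, Fin.reduceFinMk, Fin.zero_eta, Matrix.cons_val] <;> linarith

theorem floor_add_rise_le (hp : p.Ok) (i : Fin 3) {n : ℕ} (hn : n < p.Nph) :
    p.floor i n + p.rise i ≤ 2 * p.t0 := by
  have hK1 := hp.K1_pos
  have hK2 := hp.K2_pos
  have hN : (p.Nph : ℝ) ≠ 0 := (Nat.cast_pos.2 (Nph_pos hp)).ne'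
  set c := p.t0 / (64 * p.Nph) with hc
  have hc0 : 0 ≤ c := by have := hp.t0_pos; positivity
  have hlen : p.len 2 = p.K1 * p.K2 := rfl
  have hr0 : p.rise 0 = c := rfl
  have hr1 : p.rise 1 = 8 * p.K1 * c := rfl
  have hr2 : p.rise 2 = 64 * p.K1 * p.K2 * c := rfl
  have a2 : n / p.len 2 + 1 ≤ p.N2 := by
    rw [Nat.succ_le_iff, Nat.div_lt_iff_lt_mul (len_pos hp 2)]
    exact hn
  have a1 : n % p.len 2 / p.K1 + 1 ≤ p.K2 := by
    rw [Nat.succ_le_iff, Nat.div_lt_iff_lt_mul hK1, hlen, Nat.mul_comm p.K2]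
    exact Nat.mod_lt _ (Nat.mul_pos hK1 hK2)
  have a0 : n % p.K1 + 1 ≤ p.K1 := Nat.mod_lt _ hK1
  have b2 : ((n / p.len 2 : ℕ) : ℝ) + 1 ≤ p.N2 := by exact_mod_cast a2
  have b1 : ((n % p.len 2 / p.K1 : ℕ) : ℝ) + 1 ≤ p.K2 := by exact_mod_cast a1
  have b0 : ((n % p.K1 : ℕ) : ℝ) + 1 ≤ p.K1 := by exact_mod_cast a0
  have k1 : (0 : ℝ) ≤ p.K1 * c := by positivity
  have k2 : (0 : ℝ) ≤ p.K1 * p.K2 * c := by positivity
  have c0 := mul_le_mul_of_nonneg_right b0 hc0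
  have c1 := mul_le_mul_of_nonneg_right b1 k1
  have c2 := mul_le_mul_of_nonneg_right b2 k2
  have htot : (p.N2 : ℝ) * (p.K1 * p.K2 * c) * 64 = p.t0 := by
    have hN' : (p.N2 : ℝ) * (p.K1 * p.K2) = p.Nph := by unfold Par.Nph; push_cast; ring
    calc (p.N2 : ℝ) * (p.K1 * p.K2 * c) * 64 = 64 * p.Nph * c := by rw [← hN']; ring
      _ = p.t0 := by rw [hc]; field_simp
  fin_cases i <;>
    simp only [Par.floor, Fin.isValue, Fin.reduceFinMk, Fin.zero_eta, Matrix.cons_val, hr0, hr1, hr2]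
      <;> nlinarith

theorem rise_le (hp : p.Ok) (i : Fin 3) : p.rise i ≤ 1 / 4 := by
  have h1 := floor_add_rise_le hp i (n := 0) (Nph_pos hp)
  have h2 := t0_le_floor hp i 0
  linarith [hp.t0_le]

theorem floor_add_rise_le_one (hp : p.Ok) (i : Fin 3) {n : ℕ} (hn : n < p.Nph) :
    p.floor i n + p.rise i ≤ 1 / 2 := by
  linarith [floor_add_rise_le hp i hn, hp.t0_le]

end Par

/-- The tail bound decreases in the margin. -/
theorem tailB_anti (R : ℕ) {g g' : ℝ} (hg : 0 < g) (hgg : g ≤ g') : tailB R g' ≤ tailB R g := by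
  unfold tailB
  refine mul_le_mul (div_le_div_of_nonneg_left (by norm_num) hg hgg) ?_ (Real.exp_pos _).le
    (by positivity)
  refine Real.exp_le_exp.2 (neg_le_neg ?_)
  gcongr

end Vale.Agent.P078.Local
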