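import Vale.Agent.P078.Local.Period.Floor
import Vale.Agent.P078.Local.Graph.Basic
import Vale.Agent.P078.Local.Graph.Glue

/-!
# Invariants of the exact process of a period
-/

noncomputable section

namespace Vale.Agent.P078.Local

open Finset

variable {ι : Type*} [DecidableEq ι]

section congr

variable {r : ℕ} {T : Finset ι} {h h' : ι → Fin r → ℝ} {Z Z' : ι → ℝ} {x : ι → ι → ℂ} {l : ι}

theorem Irow_congr (hh : ∀ u ∈ T, h u = h' u) (hZ : ∀ u ∈ T, Z u = Z' u) :
    Irow T h Z x l = Irow T h' Z' x l := by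
  have key : ∀ U ⊆ T, qR U h Z x = qR U h' Z' x := fun U hU => by
    simp only [qR]
    rw [q_congr (fun u hu => hh u (hU hu)) (z' := ofR Z') (fun u hu => by simp [ofR, hZ u (hU hu)])
      (fun _ _ _ _ => rfl)]
  refine sum_congr rfl fun u _ => ?_
  simp only [W, Phi, key T subset_rfl, key _ (erase_subset _ _),
    key _ ((erase_subset u _).trans (erase_subset l T))]

/-- The exact jump keeps validity. -/
theorem Valid.exactJump {w : ι} {ξ : Fin r → ℝ} (hh : IsLaw T h) (hw : w ∈ T)
    (hh' : IsLaw T (Function.update h w (h w + ξ))) (hv : Valid T h Z x) :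
    Valid T (Function.update h w (h w + ξ))
      (Function.update Z w (Z w + ∑ c, ξ c * m T w h c Z x)) x := by
  obtain ⟨hv', hlt⟩ := (valid_iff_erase hw hh).1 hv
  refine (valid_iff_erase hw hh').2 ⟨(valid_congr (fun u hu => ?_) fun u hu => ?_).1 hv', ?_⟩
  · simp [ne_of_mem_erase hu]
  · simp [ne_of_mem_erase hu]
  · have e : ∀ c, m T w (Function.update h w (h w + ξ)) c
        (Function.update Z w (Z w + ∑ c, ξ c * m T w h c Z x)) x = m T w h c Z x := fun c =>
      m_congr (fun u _ hne => by simp [hne]) (fun u _ hne => by simp [hne]) c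
    simp only [e, Function.update_self, Pi.add_apply, add_mul, sum_add_distrib]
    linarith

end congr

variable [Fintype ι] (p : Par) (N : Net ι p.D)

/-- A period of level `i` begun at phase `a` in state `st` with input `S`. -/
structure PerCtx (st : St ι p.r) (i : Fin 3) (s : Bool) (a : ℕ) (S : Finset ι) : Prop where
  ok : p.Ok
  dvd : p.len i ∣ a
  fit : a + p.len i ≤ p.Nph
  law : IsLaw Finset.univ st.h
  valid : Valid S st.h (fun _ => p.floor i a) (N.xs s)

variable {p N} {st : St ι p.r} {i : Fin 3} {s : Bool} {a : ℕ} {S : Finset ι}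

theorem core_subset : core p N i S ⊆ S := sdiff_subset

theorem ball_subset_of_core {l : ι} (h : l ∈ core p N i S) : N.ball l (p.R i) ⊆ S :=
  N.ball_subset_of_notMem_compl (mem_sdiff.1 h).2

variable (ω : Seeds ι p) (σ : Coins ι p)

/-- The number of turns of `l` among `sls`. -/
def turns (sls : List (Slot ι p)) (l : ι) : ℕ := (sls.filter fun sl => decide (sl.2 = some l)).length

omit [Fintype ι] in
theorem turns_append (l₁ l₂ : List (Slot ι p)) (l : ι) :
    turns (l₁ ++ l₂) l = turns l₁ l + turns l₂ l := by simp [turns, List.filter_append]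

theorem turns_take_le {b : ℕ} (k : ℕ) (l : ι) : turns ((seg p ω a b).take k) l ≤ b - a := by
  have hnd : (((seg p ω a b).take k).filter fun sl => decide (sl.2 = some l)).Nodup :=
    ((seg_nodup ω a b).sublist (List.take_sublist _ _)).filter _
  rw [turns, ← List.toFinset_card_of_nodup hnd, ← Nat.card_Ico a b]
  refine card_le_card_of_injOn (fun sl => (sl.1 : ℕ)) ?_ ?_
  · intro sl hsl
    simp only [mem_coe, List.mem_toFinset, List.mem_filter, decide_eq_true_eq] at hsl
    simpa using (mem_seg ω).1 (List.mem_of_mem_take hsl.1)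
  · rintro ⟨m, o⟩ hm ⟨m', o'⟩ hm' he
    simp only [mem_coe, List.mem_toFinset, List.mem_filter, decide_eq_true_eq] at hm hm'
    have e : m = m' := Fin.ext he
    subst e
    rw [hm.2, hm'.2]

omit [Fintype ι] in
/-- The size of one jump of the compensated point, crudely. -/
theorem abs_dz_le (hp : p.Ok) {h : ι → Fin p.r → ℝ} {Z : ι → ℝ} {x : ι → ι → ℂ} {w : ι}
    {ξ : Fin p.r → ℝ} (hh : IsLaw S h) (hw : w ∈ S) (hd : ∀ u, x u u = 0) (hv : Valid S h Z x)
    (hξ : ∀ c, |ξ c| ≤ Real.sqrt p.η) (hsupp : ∀ c, ξ c ≠ 0 → p.h0 ≤ h w c) :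
    |∑ c, ξ c * m S w h c Z x| ≤ 4 * (p.r : ℝ) ^ 2 * Real.sqrt p.η * Z w := by
  have hv' := hv.erase hh hw
  have hm0 : ∀ c, 0 ≤ m S w h c Z x := fun c => m_nonneg hw hh hv' (hd w) c
  have hlt := sum_m_lt hw hh hv
  have hZ0 : 0 ≤ Z w :=
    (sum_nonneg fun c _ => mul_nonneg ((hh w hw).1 c) (hm0 c)).trans hlt.le
  have h0 := Par.h0_pos hp
  have hb : ∀ c, |ξ c * m S w h c Z x| ≤ Real.sqrt p.η * (4 * p.r * Z w) := by
    intro c
    by_cases hc : ξ c = 0
    · rw [hc, zero_mul, abs_zero]; positivity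
    rw [abs_mul, abs_of_nonneg (hm0 c)]
    refine mul_le_mul (hξ c) ?_ (hm0 c) (Real.sqrt_nonneg _)
    have h1 : p.h0 * m S w h c Z x ≤ Z w :=
      ((mul_le_mul_of_nonneg_right (hsupp c hc) (hm0 c)).trans
        (single_le_sum (f := fun d => h w d * m S w h d Z x)
          (fun d _ => mul_nonneg ((hh w hw).1 d) (hm0 d)) (mem_univ c))).trans hlt.le
    have hr : (4 * (p.r : ℝ)) * p.h0 = 1 := by
      have := hp.r_ge; unfold Par.h0; field_simp
    calc m S w h c Z x = (4 * (p.r : ℝ)) * (p.h0 * m S w h c Z x) := by rw [← mul_assoc, hr, one_mul]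
      _ ≤ 4 * p.r * Z w := mul_le_mul_of_nonneg_left h1 (by positivity)
  calc |∑ c, ξ c * m S w h c Z x| ≤ ∑ c, |ξ c * m S w h c Z x| := abs_sum_le_sum_abs _ _
    _ ≤ ∑ _c : Fin p.r, Real.sqrt p.η * (4 * p.r * Z w) := sum_le_sum fun c _ => hb c
    _ = _ := by simp; ring

theorem high_axInit :
    high p N s S (watched p N i s (p.floor i a) st.h S) (axInit p N i s (p.floor i a) st.h S)
      ⊆ (axInit p N i s (p.floor i a) st.h S).ex := by
  simp [axInit, high]

/-- Every watched unexited site has a row at most `3 M`. -/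
theorem high_axRun (sls : List (Slot ι p)) :
    high p N s S (watched p N i s (p.floor i a) st.h S) (axRun p N ω σ i s a S st sls).2
      ⊆ (axRun p N ω σ i s a S st sls).2.ex := by
  induction sls using List.reverseRecOn with
  | nil => exact high_axInit
  | append_singleton sls sl ih =>
    rw [axRun_concat]
    obtain ⟨m, _ | w⟩ := sl
    · exact ih
    · simp only [axStep, axJump]
      split
      · exact subset_union_right
      · exact ih

namespace PerCtx

variable (hc : PerCtx p N st i s a S)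
include hc

theorem A_le : p.floor i a + p.rise i / 2 ≤ 1 / 2 := by
  have := Par.floor_add_rise_le_one hc.ok i (n := a) (by
    have := len_pos hc.ok i; have := hc.fit; omega)
  linarith [Par.rise_pos hc.ok i]

omit hc in
/-- The unit of the crude bound. -/
theorem crude_unit_nonneg : 0 ≤ 8 * (p.r : ℝ) ^ 2 * Real.sqrt p.η := by positivity

theorem crude_budget {n : ℕ} (hn : n ≤ p.len i) :
    (n : ℝ) * (8 * (p.r : ℝ) ^ 2 * Real.sqrt p.η) ≤ 1 := by
  refine le_trans (mul_le_mul_of_nonneg_right (Nat.cast_le.2 hn) crude_unit_nonneg) ?_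
  calc (p.len i : ℝ) * (8 * (p.r : ℝ) ^ 2 * Real.sqrt p.η)
      = 8 * (p.r : ℝ) ^ 2 * p.len i * Real.sqrt p.η := by ring
    _ ≤ 1 := hc.ok.crude i

theorem crude_step (L : List (Slot ι p)) (sl : Slot ι p) (n : ι → ℕ) (hn : ∀ u, n u ≤ p.len i)
    (hv : Valid S (axRun p N ω σ i s a S st L).2.h (axRun p N ω σ i s a S st L).2.Z (N.xs s))
    (hz : ∀ u, |(axRun p N ω σ i s a S st L).2.Z u - (p.floor i a + p.rise i / 2)|
      ≤ n u * (8 * (p.r : ℝ) ^ 2 * Real.sqrt p.η)) :
    Valid S (axRun p N ω σ i s a S st (L ++ [sl])).2.h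
        (axRun p N ω σ i s a S st (L ++ [sl])).2.Z (N.xs s) ∧
      ∀ u, |(axRun p N ω σ i s a S st (L ++ [sl])).2.Z u - (p.floor i a + p.rise i / 2)|
        ≤ ((n u + if sl.2 = some u then 1 else 0 : ℕ) : ℝ) * (8 * (p.r : ℝ) ^ 2 * Real.sqrt p.η) := by
  have hA : p.floor i a + p.rise i / 2 ≤ 1 / 2 := hc.A_le
  have hweak : ∀ u, |(axRun p N ω σ i s a S st L).2.Z u - (p.floor i a + p.rise i / 2)|
      ≤ ((n u + if sl.2 = some u then 1 else 0 : ℕ) : ℝ) * (8 * (p.r : ℝ) ^ 2 * Real.sqrt p.η) :=
    fun u => (hz u).trans (mul_le_mul_of_nonneg_right (Nat.cast_le.2 (Nat.le_add_right _ _))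
      crude_unit_nonneg)
  rw [axRun_concat]
  obtain ⟨m, _ | w⟩ := sl
  · exact ⟨hv, hweak⟩
  have hlawq := axRun_isLaw (N := N) ω st σ (i := i) (s := s) (a := a) (S := S) hc.ok hc.law L
  have hlaw1 := runOn_isLaw (N := N) ω σ hc.ok L st hc.law
  have hq1 := axRun_fst (N := N) ω st σ (i := i) (s := s) (a := a) (S := S) L
  have he0 := (ax_h_eq (N := N) ω st σ (i := i) (s := s) (a := a) (S := S) L w).1
  generalize axRun p N ω σ i s a S st L = q at *
  rw [← hq1] at hlaw1 he0
  by_cases hw : w ∈ core p N i S ∧ w ∉ q.2.ex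
  · simp only [axStep, axJump, if_pos hw]
    have he := he0 hw.1 hw.2
    have hwS : w ∈ S := core_subset hw.1
    set ξ := jumpAt p N ω m q.1 w (σ (m, some w))
    have hlaw' : IsLaw S (Function.update q.2.h w (q.2.h w + ξ)) := by
      intro u _
      rcases eq_or_ne u w with rfl | hne
      · rw [Function.update_self, he]
        exact isLaw_add_jumpAt ω m q.1 u _ hc.ok (hlaw1 u (mem_univ u)).1 (hlaw1 u (mem_univ u)).2
      · rw [Function.update_of_ne hne]
        exact hlawq u (mem_univ u)
    refine ⟨hv.exactJump (fun u _ => hlawq u (mem_univ u)) hwS hlaw', fun u => ?_⟩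
    rcases eq_or_ne u w with rfl | hne
    · rw [Function.update_self, if_pos rfl]
      have hbudget := hc.crude_budget (hn u)
      have hZ2 : q.2.Z u ≤ 2 := by linarith [(abs_le.1 (hz u)).2]
      have hd := abs_dz_le (ξ := ξ) hc.ok (fun v _ => hlawq v (mem_univ v)) hwS (N.xs_diag s) hv
        (fun c => abs_jumpAt_le (N := N) ω m q.1 u (σ (m, some u)) c)
        (fun c hc' => by
          rw [he]
          have := live_h0 (mem_live_of_jumpAt_ne (N := N) ω m q.1 u _ hc')
          linarith [Real.sqrt_nonneg p.η])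
      have hstep : 4 * (p.r : ℝ) ^ 2 * Real.sqrt p.η * q.2.Z u
          ≤ 8 * (p.r : ℝ) ^ 2 * Real.sqrt p.η := by
        calc 4 * (p.r : ℝ) ^ 2 * Real.sqrt p.η * q.2.Z u
            ≤ 4 * (p.r : ℝ) ^ 2 * Real.sqrt p.η * 2 :=
              mul_le_mul_of_nonneg_left hZ2 (by positivity)
          _ = _ := by ring
      have h1 := hz u
      rw [abs_le] at h1 hd ⊢
      rw [Nat.cast_add, Nat.cast_one, add_mul, one_mul]
      constructor <;> linarith
    · rw [Function.update_of_ne hne]
      exact hweak u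
  · simp only [axStep, axJump, if_neg hw]
    exact ⟨hv, hweak⟩

/-- Validity and the crude bound on the compensated point. -/
theorem valid_crude (k : ℕ) :
    Valid S (axRun p N ω σ i s a S st ((seg p ω a (a + p.len i)).take k)).2.h
        (axRun p N ω σ i s a S st ((seg p ω a (a + p.len i)).take k)).2.Z (N.xs s) ∧
      ∀ u, |(axRun p N ω σ i s a S st ((seg p ω a (a + p.len i)).take k)).2.Z u
          - (p.floor i a + p.rise i / 2)|
        ≤ turns ((seg p ω a (a + p.len i)).take k) u * (8 * (p.r : ℝ) ^ 2 * Real.sqrt p.η) := by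
  induction k with
  | zero =>
    refine ⟨?_, fun u => by simp [axRun, axInit, turns]⟩
    exact hc.valid.mono (fun u _ => hc.law u (mem_univ u)) fun u _ => by
      simp [axRun, axInit]; linarith [Par.rise_pos hc.ok i]
  | succ k ih =>
    rcases lt_or_ge k (seg p ω a (a + p.len i)).length with hk | hk
    · rw [List.take_succ_eq_append_getElem hk]
      have h := hc.crude_step ω σ ((seg p ω a (a + p.len i)).take k)
        ((seg p ω a (a + p.len i))[k]) (turns ((seg p ω a (a + p.len i)).take k))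
        (fun u => by simpa using turns_take_le (a := a) (b := a + p.len i) ω k u) ih.1 ih.2
      refine ⟨h.1, fun u => (h.2 u).trans (le_of_eq ?_)⟩
      congr 2
      rw [turns_append]
      congr 1
      by_cases hu : ((seg p ω a (a + p.len i))[k]).2 = some u <;> simp [turns, hu]
    · rw [List.take_of_length_le (Nat.le_succ_of_le hk)]
      rwa [List.take_of_length_le hk] at ih

theorem Z_crude (k : ℕ) (u : ι) :
    |(axRun p N ω σ i s a S st ((seg p ω a (a + p.len i)).take k)).2.Z u
      - (p.floor i a + p.rise i / 2)| ≤ 1 :=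
  ((hc.valid_crude ω σ k).2 u).trans
    (hc.crude_budget (by simpa using turns_take_le (a := a) (b := a + p.len i) ω k u))

end PerCtx

end Vale.Agent.P078.Local
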