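import Vale.Agent.P078.Local.Period.ZBound

/-!
# The output of a period is valid one rise higher; the turn test is automatic deep inside
-/

noncomputable section

namespace Vale.Agent.P078.Local

open Finset

variable {ι : Type*} [Fintype ι] [DecidableEq ι] {p : Par} {N : Net ι p.D}
  {st : St ι p.r} {i : Fin 3} {s : Bool} {a : ℕ} {S : Finset ι}
  (ω : Seeds ι p) (σ : Coins ι p)

/-- The output of a period. -/
theorem out_valid (hL : Iface.StmtLine (ι := ι) (r := p.r))
    (hO : Iface.StmtOrder (ι := ι) (r := p.r)) (hT : Iface.StmtTail (ι := ι) (r := p.r))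
    (hc : PerCtx p N st i s a S) {D : Finset ι} (_hDS : D ⊆ S)
    (hD : Valid D (runOn p N ω σ st (seg p ω a (a + p.len i))).h
      (fun _ => p.floor i a + p.rise i / 8) (N.xs s)) :
    Valid (perOut p N ω σ i s a S D st) (runOn p N ω σ st (seg p ω a (a + p.len i))).h
      (fun _ => p.floor i a + 7 * p.rise i / 8) (N.xs s) := by
  classical
  set R := p.R i with hR
  have hR4 : 4 ≤ R := hc.ok.R_ge i
  set E := perEx p N ω σ i s a S st ∩ N.nbhd (S \ D) (11 * R) with hE
  set F := (univ \ S) ∪ E with hF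
  set S' := perOut p N ω σ i s a S D st with hS'
  have hS'def : S' = S \ N.nbhd F (10 * R) := rfl
  set hend := (runOn p N ω σ st (seg p ω a (a + p.len i))).h with hhend
  have hlaw : IsLaw univ hend := runOn_isLaw ω σ hc.ok _ _ hc.law
  set V : ℕ → Finset ι := fun j =>
    (S \ N.nbhd F ((j + 1) * R)) ∩ N.nbhd (S \ D) ((10 - j) * R) with hV
  have hV0core : V 0 ⊆ core p N i S := fun l hl => by
    simp only [hV, mem_inter, mem_sdiff] at hl
    refine mem_sdiff.2 ⟨hl.1.1, fun h => hl.1.2 ?_⟩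
    simpa using N.nbhd_mono_left (k := R) subset_union_left h
  have hV0e : Disjoint (V 0) (perEx p N ω σ i s a S st) := by
    refine disjoint_left.2 fun l hl hex => ?_
    simp only [hV, mem_inter, mem_sdiff] at hl
    refine hl.1.2 (N.subset_nbhd (mem_union_right _ (mem_inter.2 ⟨hex, ?_⟩)))
    exact N.nbhd_mono (by omega) hl.2
  have hnest : ∀ j < 9, N.nbhd (V (j + 1)) R ⊆ V j := by
    intro j hj u hu
    obtain ⟨l, hl, hul⟩ := N.mem_nbhd_iff.1 hu
    simp only [hV, mem_inter, mem_sdiff] at hl ⊢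
    have hfar : u ∉ N.nbhd F ((j + 1) * R) := fun h => hl.1.2 (by
      rw [show (j + 1 + 1) * R = (j + 1) * R + R by ring, ← N.nbhd_nbhd]
      exact N.mem_nbhd_iff'.2 ⟨u, h, hul⟩)
    refine ⟨⟨?_, hfar⟩, ?_⟩
    · by_contra hS
      exact hfar (N.subset_nbhd (mem_union_left _ (mem_sdiff.2 ⟨mem_univ u, hS⟩)))
    · have h := N.mem_nbhd_iff.2 ⟨l, hl.2, hul⟩
      rw [N.nbhd_nbhd] at h
      exact N.nbhd_mono (by
        calc (10 - (j + 1)) * R + R = ((10 - (j + 1)) + 1) * R := by ring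
          _ ≤ (10 - j) * R := Nat.mul_le_mul_right _ (by omega)) h
  set T1 := V 9 ∩ S' with hT1
  set T2 := D ∩ S' with hT2
  set L := seg p ω a (a + p.len i) with hLdef
  have hfull : L.take L.length = L := List.take_length
  have hzb := zbound_of ω σ hL hO hT hc V hV0core hV0e hnest L.length
  have hvz := (hc.valid_crude ω σ L.length).1
  simp only [← hLdef, hfull] at hzb hvz
  have hT1S : T1 ⊆ S := inter_subset_right.trans sdiff_subset
  have hsub9 : V 9 ⊆ V 0 := fun l hl => by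
    simp only [hV, mem_inter, mem_sdiff] at hl ⊢
    exact ⟨⟨hl.1.1, fun h => hl.1.2 (N.nbhd_mono (Nat.mul_le_mul_right _ (by norm_num)) h)⟩,
      N.nbhd_mono (Nat.mul_le_mul_right _ (by norm_num)) hl.2⟩
  have hh1 : ∀ l ∈ T1, (axRun p N ω σ i s a S st L).2.h l = hend l := fun l hl => by
    refine (ax_h_eq (N := N) ω st σ L l).1 (hV0core (hsub9 (mem_inter.1 hl).1)) fun hex => ?_
    exact disjoint_left.1 hV0e (hsub9 (mem_inter.1 hl).1) hex
  have hv1 : Valid T1 hend (axRun p N ω σ i s a S st L).2.Z (N.xs s) :=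
    (valid_congr hh1 fun _ _ => rfl).1
      (hvz.subset (fun u _ => axRun_isLaw (N := N) ω st σ hc.ok hc.law L u (mem_univ u)) hT1S)
  have hv2 : Valid T2 hend (fun _ => p.floor i a + p.rise i / 8) (N.xs s) :=
    hD.subset (fun u _ => hlaw u (mem_univ u)) inter_subset_left
  have hρ := Par.rise_pos hc.ok i
  have hglue := glue_net N s (T := S') (T1 := T1) (T2 := T2) (A := S \ D) (h := hend) (w := R)
    (b := p.floor i a + 9 * p.rise i / 16) (fun u _ => hlaw u (mem_univ u)) (by omega)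
    inter_subset_right inter_subset_right (fun l hl hlev => ?_) (fun l hl hlev => ?_) hv1 hv2
    (fun l hl => ?_) (fun l _ => by linarith)
  · refine hglue.mono (fun u _ => hlaw u (mem_univ u)) fun u _ => ?_
    have hR0 : (0 : ℝ) < (R : ℝ) ^ 2 := by
      have : (0 : ℝ) < R := Nat.cast_pos.2 (by omega)
      positivity
    have hg : 3 / (R : ℝ) ^ 2 ≤ 3 * p.rise i / 16 := by
      rw [div_le_iff₀ hR0]
      have := hc.ok.glue i
      have hD0 : (0 : ℝ) ≤ (p.D : ℝ) := Nat.cast_nonneg _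
      simp only [← hR] at this
      nlinarith
    linarith
  · refine mem_inter.2 ⟨?_, hl⟩
    simp only [hS'def, mem_sdiff] at hl
    simp only [hV, mem_inter, mem_sdiff]
    refine ⟨⟨hl.1, by simpa using hl.2⟩, ?_⟩
    simpa using N.nbhd_mono hlev.le (N.mem_nbhd_of_lev_lt hlev)
  · refine mem_inter.2 ⟨?_, hl⟩
    have hne : l ∉ S \ D := fun h => absurd ((N.lev_eq_zero_iff (w := R) (by omega)).2 h) hlev.ne'
    simp only [hS'def, mem_sdiff] at hl
    by_contra hlD
    exact hne (mem_sdiff.2 ⟨hl.1, hlD⟩)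
  · have := (abs_le.1 (hzb l (mem_inter.1 hl).1)).2
    linarith

/-- Deep inside a clean region every turn test passes. -/
theorem turn_auto (hL : Iface.StmtLine (ι := ι) (r := p.r))
    (hO : Iface.StmtOrder (ι := ι) (r := p.r)) (hT : Iface.StmtTail (ι := ι) (r := p.r))
    (hc : PerCtx p N st i s a S) {l : ι} (hstart : startOK p N i s (p.floor i a) st.h l)
    (hball : N.ball l (12 * p.R i) ⊆ S)
    (hex : Disjoint (N.ball l (12 * p.R i)) (perEx p N ω σ i s a S st)) (k : ℕ) :
    turnOK p N i s (p.floor i a) (runOn p N ω σ st ((seg p ω a (a + p.len i)).take k)).h l := by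
  classical
  set R := p.R i with hR
  have hR4 : 4 ≤ R := hc.ok.R_ge i
  set V : ℕ → Finset ι := fun j => N.ball l ((10 - j) * R) with hV
  have hV0core : V 0 ⊆ core p N i S := fun u hu => by
    refine mem_sdiff.2 ⟨hball (N.ball_mono (by omega) hu), N.notMem_nbhd_iff.2 ?_⟩
    refine disjoint_left.2 fun v hv hvS => (mem_sdiff.1 hvS).2 (hball ?_)
    exact N.ball_mono (by omega) (N.ball_trans hu hv)
  have hV0e : Disjoint (V 0) (perEx p N ω σ i s a S st) :=
    hex.mono_left (N.ball_mono (by omega))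
  have hnest : ∀ j < 9, N.nbhd (V (j + 1)) R ⊆ V j := fun j hj => by
    intro u hu
    obtain ⟨v, hv, huv⟩ := N.mem_nbhd_iff.1 hu
    refine N.ball_mono ?_ (N.ball_trans hv huv)
    calc (10 - (j + 1)) * R + R = ((10 - (j + 1)) + 1) * R := by ring
      _ ≤ (10 - j) * R := Nat.mul_le_mul_right _ (by omega)
  set L := (seg p ω a (a + p.len i)).take k with hLdef
  have hzb := zbound_of ω σ hL hO hT hc V hV0core hV0e hnest k
  have hv := (hc.valid_crude ω σ k).1
  have hcr := hc.Z_crude ω σ k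
  simp only [← hLdef] at hzb hv hcr
  set q := axRun p N ω σ i s a S st L with hq
  set B := N.ball l R with hB
  have hB9 : V 9 = B := by simp [hV, hB]
  have hBV : B ⊆ V 0 := N.ball_mono (by omega)
  have hh : IsLaw univ q.2.h := axRun_isLaw (N := N) ω st σ hc.ok hc.law L
  have hhS : IsLaw S q.2.h := fun u _ => hh u (mem_univ u)
  have heq : ∀ u ∈ B, q.2.h u = (runOn p N ω σ st L).h u := fun u hu =>
    (ax_h_eq (N := N) ω st σ L u).1 (hV0core (hBV hu)) fun hx =>
      disjoint_left.1 hV0e (hBV hu) (ex_take_subset_perEx (N := N) ω st σ k hx)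
  have hBS : B ⊆ S := (N.ball_mono (by omega)).trans hball
  have hlB : l ∈ B := N.mem_ball_self l _
  have hlS := hBS hlB
  set ρ := p.rise i with hρ
  set x := N.xs s with hx
  have hρ0 : 0 < ρ := Par.rise_pos hc.ok i
  have hρ4 : ρ ≤ 1 / 4 := Par.rise_le hc.ok i
  have hd : ∀ v, x v v = 0 := N.xs_diag s
  have hz : ∀ u ∈ B, |q.2.Z u - (p.floor i a + ρ / 2)| ≤ ρ / 16 := fun u hu =>
    hzb u (hB9 ▸ hu)
  have hhB : IsLaw B q.2.h := hhS.mono hBS
  set c1 : ι → ℝ := fun _ => p.floor i a + 11 * ρ / 16 with hc1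
  set top : ι → ℝ := fun _ => p.floor i a + ρ with htop
  have hvq : ∀ t : ℝ, 0 ≤ t → Valid S q.2.h (fun u => q.2.Z u + t) x := fun t ht =>
    hv.mono hhS fun u _ => by linarith
  have hvBq := fun t ht => (hvq t ht).subset hhS hBS
  have hvtop : Valid B q.2.h top x := (hv.subset hhS hBS).mono hhB fun u hu => by
    have := (abs_le.1 (hz u hu)).2; simp only [htop]; linarith
  refine ⟨(valid_congr heq fun _ _ => rfl).1 hvtop, ?_⟩
  rw [← Irow_congr heq fun _ _ => rfl]
  have hwatch : l ∈ watched p N i s (p.floor i a) st.h S :=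
    mem_filter.2 ⟨hV0core (hBV hlB), hstart⟩
  have hI := Irow_le_of_watched (N := N) ω σ (st := st) (i := i) (s := s) (a := a) (S := S)
    (sls := L) hwatch fun hx => disjoint_left.1 hV0e (hBV hlB)
      (ex_take_subset_perEx (N := N) ω st σ k hx)
  simp only [← hq, ← hx] at hI
  -- secant of the ball between `c1` and `top`
  have hvc1 : Valid B q.2.h c1 x := (hv.subset hhS hBS).mono hhB fun u hu => by
    have := (abs_le.1 (hz u hu)).2; simp only [hc1]; linarith
  have e1 : (fun u => c1 u + 5 * ρ / 16) = top := by funext u; simp [hc1, htop]; ring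
  have s1 := (hL B q.2.h c1 x l hhB hlB hd hvc1 (5 * ρ / 16) (by linarith)).2.1
  rw [e1] at s1
  -- compare with the set
  have p1 := (hO B B q.2.h (fun u => q.2.Z u + ρ / 8) c1 x l l hhB subset_rfl hlB hlB hd
    (hvBq (ρ / 8) (by linarith)) fun u hu => by
      have := (abs_le.1 (hz u hu)).2; simp only [hc1]; linarith).2.2.2.2.1
  have p2 := (hO B B q.2.h top (fun u => q.2.Z u + 9 * ρ / 16) x l l hhB subset_rfl hlB hlB hd
    hvtop fun u hu => by
      have := (abs_le.1 (hz u hu)).1; simp only [htop]; linarith).2.2.2.2.1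
  have p3 := (hO S B q.2.h (fun u => q.2.Z u + ρ / 8) (fun u => q.2.Z u + ρ / 8) x l l hhS hBS hlB
    hlS hd (hvq (ρ / 8) (by linarith)) fun _ _ => le_rfl).2.2.2.2.2.1
  have p4 := (hT p.D N s S q.2.h (fun u => q.2.Z u + 9 * ρ / 16) l R (ρ / 8) hhS hR4
    (by positivity) (by linarith) (fun u _ => by
      have := (abs_le.1 (hcr u)).2
      have := hc.A_le
      linarith) hBS (hv.mono hhS fun u _ => by linarith)).1
  simp only [← hB, ← hx] at p4
  have s2 := (hL S q.2.h (fun u => q.2.Z u + ρ / 8) x l hhS hlS hd (hvq (ρ / 8) (by linarith))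
    (7 * ρ / 16) (by linarith)).1
  have e2 : (fun u => q.2.Z u + ρ / 8 + 7 * ρ / 16) = fun u => q.2.Z u + 9 * ρ / 16 := by
    funext u; ring
  rw [e2] at s2
  have s3 := (hL S q.2.h q.2.Z x l hhS hlS hd hv (ρ / 8) (by linarith)).2.2.1
  have htl : tailB R (ρ / 8) ≤ ρ / 64 := hc.ok.tl_le i
  have hM := hc.ok.M_ge
  have : 5 * ρ / 16 * Irow B q.2.h top x l ≤ 5 * ρ / 16 * (5 * p.M) := by nlinarith
  exact le_of_mul_le_mul_left this (by linarith)

/-- `Iface.StmtZBound`, given the slice facts. -/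
theorem stmtZBound_of (hL : Iface.StmtLine (ι := ι) (r := p.r))
    (hO : Iface.StmtOrder (ι := ι) (r := p.r)) (hT : Iface.StmtTail (ι := ι) (r := p.r)) :
    Iface.StmtZBound (ι := ι) p := by
  intro hp N ω σ i s a S hin V h0 h0e hnest k
  obtain ⟨hd, hf, hv⟩ := hin
  have hc : PerCtx p N (stateAt p N ω σ a) i s a S := ⟨hp, hd, hf, stateAt_isLaw ω σ hp a, hv⟩
  refine ⟨(hc.valid_crude ω σ k).1, fun l hl => ⟨zbound_of ω σ hL hO hT hc V h0 h0e hnest k l hl, ?_⟩⟩
  have hsub : ∀ j ≤ 9, V j ⊆ V 0 := by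
    intro j
    induction j with
    | zero => intro _; exact subset_rfl
    | succ j ihj => intro hj; exact ((N.subset_nbhd).trans (hnest j (by omega))).trans (ihj (by omega))
  have hl0 := hsub 9 le_rfl hl
  rw [axRun_fst]
  exact (ax_h_eq (N := N) ω (stateAt p N ω σ a) σ _ l).1 (h0 hl0) fun hx =>
    disjoint_left.1 h0e hl0 (ex_take_subset_perEx (N := N) ω (stateAt p N ω σ a) σ k hx)

/-- `Iface.StmtOut`, given the slice facts. -/
theorem stmtOut_of (hL : Iface.StmtLine (ι := ι) (r := p.r))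
    (hO : Iface.StmtOrder (ι := ι) (r := p.r)) (hT : Iface.StmtTail (ι := ι) (r := p.r)) :
    Iface.StmtOut (ι := ι) p := by
  intro hp N ω σ i s a S D hin hDS hD
  obtain ⟨hd, hf, hv⟩ := hin
  rw [stateAt_split ω σ (Nat.le_add_right a (p.len i))] at hD ⊢
  exact out_valid ω σ hL hO hT ⟨hp, hd, hf, stateAt_isLaw ω σ hp a, hv⟩ hDS hD

/-- `Iface.StmtTurn`, given the slice facts. -/
theorem stmtTurn_of (hL : Iface.StmtLine (ι := ι) (r := p.r))
    (hO : Iface.StmtOrder (ι := ι) (r := p.r)) (hT : Iface.StmtTail (ι := ι) (r := p.r)) :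
    Iface.StmtTurn (ι := ι) p := by
  intro hp N ω σ i s a S l hin hstart hball hex k
  obtain ⟨hd, hf, hv⟩ := hin
  exact turn_auto ω σ hL hO hT ⟨hp, hd, hf, stateAt_isLaw ω σ hp a, hv⟩ hstart hball hex k

end Vale.Agent.P078.Local
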