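import Vale.Agent.P078.Local.Period.Inv
import Vale.Agent.P078.Local.Iface

/-!
# One jump of the compensated point, finely
-/

noncomputable section

namespace Vale.Agent.P078.Local

open Finset

variable {ι : Type*} [Fintype ι] [DecidableEq ι] {p : Par} {N : Net ι p.D}
  {i : Fin 3} {s : Bool} {S B : Finset ι}

/-- `|m^S(Z) - m^B(L + ρ)|` at a watched unexited site with a passed turn test. -/
theorem abs_m_sub_le (hL : Iface.StmtLine (ι := ι) (r := p.r))
    (hO : Iface.StmtOrder (ι := ι) (r := p.r)) (hT : Iface.StmtTail (ι := ι) (r := p.r))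
    (hp : p.Ok) {h : ι → Fin p.r → ℝ} {Z : ι → ℝ} {l : ι} {c : Fin p.r} {A e : ℝ}
    (hh : IsLaw S h) (hv : Valid S h Z (N.xs s)) (hZ2 : ∀ u ∈ S, Z u + p.rise i / 2 ≤ 2)
    (hA : A + p.rise i / 2 ≤ 1) (hB : N.ball l (p.R i) ⊆ S)
    (he : 0 ≤ e) (hze : ∀ u ∈ N.ball l (p.R i), |Z u - A| ≤ e)
    (hI : Irow S h Z (N.xs s) l ≤ 3 * p.M)
    (hvB : Valid (N.ball l (p.R i)) h (fun _ => A + p.rise i / 2) (N.xs s))
    (hIB : Irow (N.ball l (p.R i)) h (fun _ => A + p.rise i / 2) (N.xs s) l ≤ 5 * p.M)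
    (hc : p.h0 ≤ h l c) :
    |m S l h c Z (N.xs s) - m (N.ball l (p.R i)) l h c (fun _ => A + p.rise i / 2) (N.xs s)|
      ≤ 80 * p.r * p.M * (p.rise i + e) := by
  set x := N.xs s with hx
  set ρ := p.rise i with hρ
  set T := N.ball l (p.R i) with hTdef
  set b : ι → ℝ := fun _ => A + ρ / 2 with hb
  set Y : ι → ℝ := fun u => Z u + ρ / 2 with hY
  have hlT : l ∈ T := N.mem_ball_self l _
  have hlS : l ∈ S := hB hlT
  have hhT : IsLaw T h := hh.mono hB
  have hρ0 : 0 < ρ := Par.rise_pos hp i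
  have hρ1 : ρ ≤ 1 / 4 := Par.rise_le hp i
  have hM := hp.M_ge
  have hd : ∀ v, x v v = 0 := N.xs_diag s
  have h00 := Par.h0_pos hp
  have hc0 : 0 < h l c := h00.trans_le hc
  have hr : (8 : ℝ) ≤ p.r := by exact_mod_cast hp.r_ge
  have hr4 : 1 / h l c ≤ 4 * p.r := by
    rw [div_le_iff₀ hc0]
    calc (1 : ℝ) = 4 * p.r * p.h0 := by unfold Par.h0; field_simp
      _ ≤ 4 * p.r * h l c := by gcongr
  -- positivity of valid diagonals
  have hpos : ∀ (U : Finset ι) (W : ι → ℝ), IsLaw U h → Valid U h W x → l ∈ U → 0 ≤ W l := by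
    intro U W hU hW hl
    have := hO U U h W W x l l hU subset_rfl hl hl hd hW (fun _ _ => le_rfl)
    by_contra hneg
    push Not at hneg
    have h1 : 0 ≤ ∑ d, h l d * m U l h d W x := sum_nonneg fun d _ =>
      mul_nonneg ((hU l hl).1 d) (m_nonneg hl hU (hW.erase hU hl) (hd l) d)
    linarith [sum_m_lt hl hU hW]
  -- the slope
  have slope : ∀ (U : Finset ι) (W : ι → ℝ) (K : ℝ), IsLaw U h → Valid U h W x → l ∈ U → W l ≤ 2 →
      0 ≤ K → Irow U h W x l ≤ K → ∀ a : ℝ, 0 ≤ a →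
      m U l h c W x - m U l h c (fun u => W u + a) x ≤ a * (16 * p.r * K) := by
    intro U W K hU hW hl hW2 hK hIK a ha
    refine ((hL U h W x l hU hl hd hW a ha).2.2.2 c hc0).trans (mul_le_mul_of_nonneg_left ?_ ha)
    have hI0 : 0 ≤ Irow U h W x l := sum_nonneg fun u hu =>
      (hO U U h W W x l u hU subset_rfl hl hu hd hW (fun _ _ => le_rfl)).2.2.1
    have hW0 := hpos U W hU hW hl
    calc W l ^ 2 * Irow U h W x l / h l c = W l ^ 2 * Irow U h W x l * (1 / h l c) := by ring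
      _ ≤ 4 * K * (4 * p.r) := by
        refine mul_le_mul (mul_le_mul ?_ hIK hI0 (by norm_num)) hr4 (by positivity) (by positivity)
        nlinarith
      _ = 16 * p.r * K := by ring
  have hanti : ∀ (U : Finset ι) (W W' : ι → ℝ), IsLaw U h → Valid U h W x → l ∈ U →
      (∀ u ∈ U, W u ≤ W' u) → m U l h c W' x ≤ m U l h c W x := fun U W W' hU hW hl hle =>
    m_antitone hl hU (hW.erase hU hl) (fun u hu _ => hle u hu) c
  -- validity at the shifted points
  have hvY : Valid S h Y x := hv.mono hh fun u _ => by simp [hY]; linarith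
  have hvYT : Valid T h Y x := hvY.subset hh hB
  have hvq : ∀ q : ℝ, 0 ≤ q → Valid S h (fun u => Z u + q) x := fun q hq =>
    hv.mono hh fun u _ => by linarith
  -- tail at `Y`
  have htail := hT p.D N s S h Y l (p.R i) (ρ / 8) hh (hp.R_ge i) (by positivity) (by linarith)
    (fun u hu => by have := hZ2 u hu; simp only [hY]; linarith) hB
    (hv.mono hh fun u _ => by simp only [hY]; linarith)
  have htl : tailB (p.R i) (ρ / 8) ≤ ρ / 64 := hp.tl_le i
  -- the row of the ball at `Y`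
  have hIY : Irow T h Y x l ≤ 5 * p.M := by
    have e1 : (fun u => (fun v => Z v + ρ / 4) u + ρ / 4) = Y := by funext u; simp [hY]; ring
    have hv4 := hvq (ρ / 4) (by linarith)
    have l1 := (hL T h (fun v => Z v + ρ / 4) x l hhT hlT hd (hv4.subset hh hB) (ρ / 4)
      (by linarith)).2.1
    rw [e1] at l1
    have l2 := (hL S h (fun v => Z v + ρ / 4) x l hh hlS hd hv4 (ρ / 4) (by linarith)).1
    rw [e1] at l2
    have l3 := (hL S h Z x l hh hlS hd hv (ρ / 4) (by linarith)).2.2.1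
    have l4 := (hO S T h (fun v => Z v + ρ / 4) (fun v => Z v + ρ / 4) x l l hh hB hlT hlS hd hv4
      (fun _ _ => le_rfl)).2.2.2.2.2.1
    have l5 := htail.1
    simp only [← hTdef, ← hx] at l5
    have : ρ / 4 * Irow T h Y x l ≤ ρ / 4 * (5 * p.M) := by nlinarith
    exact le_of_mul_le_mul_left this (by linarith)
  have hY2 : Y l ≤ 2 := hZ2 l hlS
  have hshift : ∀ u ∈ T, b u ≤ Y u + e := fun u hu => by
    have := (abs_le.1 (hze u hu)).1; simp [hY, hb]; linarith
  have hshift' : ∀ u ∈ T, Y u ≤ b u + e := fun u hu => by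
    have := (abs_le.1 (hze u hu)).2; simp [hY, hb]; linarith
  -- upper side
  have u1 := slope S Z (3 * p.M) hh hv hlS (by linarith [hZ2 l hlS]) (by linarith) hI (ρ / 2)
    (by linarith)
  have u2 := htail.2 c
  simp only [← hTdef, ← hx] at u2
  have u3 := slope T Y (5 * p.M) hhT hvYT hlT hY2 (by linarith) hIY e he
  have u4 : m T l h c (fun u => Y u + e) x ≤ m T l h c b x := hanti T b _ hhT hvB hlT hshift
  -- lower side
  have d1 : m S l h c Y x ≤ m S l h c Z x := hanti S Z Y hh hv hlS fun u _ => by simp [hY]; linarith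
  have d2 : m T l h c Y x ≤ m S l h c Y x :=
    (hO S T h Y Y x l l hh hB hlT hlS hd hvY (fun _ _ => le_rfl)).2.2.2.2.2.2.1 c
  have d3 : m T l h c (fun u => b u + e) x ≤ m T l h c Y x := hanti T Y _ hhT hvYT hlT hshift'
  have d4 := slope T b (5 * p.M) hhT hvB hlT (by simp [hb]; linarith) (by linarith) hIB e he
  rw [abs_le]
  constructor <;> nlinarith [mul_nonneg (mul_nonneg (sub_nonneg.2 hM) hρ0.le) (sub_nonneg.2 hr),
    mul_nonneg (mul_nonneg he (sub_nonneg.2 hM)) (sub_nonneg.2 hr), mul_nonneg hρ0.le (sub_nonneg.2 hr),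
    mul_nonneg hρ0.le (sub_nonneg.2 hM), mul_nonneg he (sub_nonneg.2 hr), hρ0.le, he]

end Vale.Agent.P078.Local
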